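import Vale.Agent.P021Z.Defs
import Vale.Agent.P021Z.An.Simplex

/-! Counting exponent vectors of bounded weight. -/

namespace Vale.Agent.P021Z

theorem mem_simplex_of_lt {σ : Type} [Fintype σ] {w : σ → ℝ} (hw : ∀ i, 0 < w i) {X : ℝ}
    {α : σ →₀ ℕ} (h : wt w α < X) : α ∈ simplex w X := by
  classical
  unfold simplex
  rw [Finset.mem_filter, Finset.mem_Iic]
  refine ⟨fun i => ?_, h⟩
  have h1 : w i * α i ≤ wt w α :=
    Finset.single_le_sum (f := fun i => w i * (α i : ℝ))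
      (fun i _ => mul_nonneg (hw i).le (Nat.cast_nonneg _)) (Finset.mem_univ i)
  have h2 : (α i : ℝ) ≤ X / w i := by
    rw [le_div_iff₀ (hw i), mul_comm]
    exact h1.trans h.le
  have h3 : (α i : ℝ) ≤ (⌈X / w i⌉₊ : ℝ) := h2.trans (Nat.le_ceil _)
  simpa using h3

theorem lt_of_mem_simplex {σ : Type} [Fintype σ] {w : σ → ℝ} {X : ℝ}
    {α : σ →₀ ℕ} (h : α ∈ simplex w X) : wt w α < X := by
  classical
  unfold simplex at h
  exact (Finset.mem_filter.1 h).2

theorem card_simplex_lower {σ : Type} [Fintype σ] {w : σ → ℝ} (hw : ∀ i, 0 < w i) {X : ℝ}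
    (hX : 0 < X) :
    X ^ Fintype.card σ / ((Fintype.card σ).factorial * ∏ i, w i) ≤ (simplex w X).card :=
  An.simplex_le_card_finsupp w hw X hX _ fun _ h => mem_simplex_of_lt hw h

theorem card_simplex_upper {σ : Type} [Fintype σ] {w : σ → ℝ} (hw : ∀ i, 0 < w i) {X : ℝ}
    (hX : 0 ≤ X) :
    ((simplex w X).card : ℝ) ≤
      (X + ∑ i, w i) ^ Fintype.card σ / ((Fintype.card σ).factorial * ∏ i, w i) :=
  An.card_le_simplex_finsupp w hw X
    (add_nonneg hX (Finset.sum_nonneg fun i _ => (hw i).le)) _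
    fun _ h => (lt_of_mem_simplex h).le

end Vale.Agent.P021Z
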