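import Vale.Agent.P021Z.Defs

/-! Basic properties of weights, of the degree filtration `F` and of the order filtration `W`. -/

open MvPolynomial

noncomputable section

namespace Vale.Agent.P021Z

section Basic
variable {σ : Type} [Fintype σ]

theorem wt_zero (w : σ → ℝ) : wt w 0 = 0 := by simp [wt]

theorem wt_add (w : σ → ℝ) (α β : σ →₀ ℕ) : wt w (α + β) = wt w α + wt w β := by
  simp [wt, mul_add, Finset.sum_add_distrib]

theorem wt_single (w : σ → ℝ) (i : σ) (n : ℕ) : wt w (Finsupp.single i n) = w i * n := by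
  classical
  unfold wt
  rw [Finset.sum_eq_single i]
  · simp
  · intro j _ hj
    simp [Finsupp.single_eq_of_ne hj]
  · simp

theorem wt_eq_weight (w : σ → ℝ) (α : σ →₀ ℕ) : wt w α = Finsupp.weight w α := by
  rw [Finsupp.weight_apply, Finsupp.sum_fintype _ _ (by simp)]
  simp [wt, mul_comm]

theorem wt_nonneg {w : σ → ℝ} (hw : ∀ i, 0 ≤ w i) (α : σ →₀ ℕ) : 0 ≤ wt w α :=
  Finset.sum_nonneg fun i _ => mul_nonneg (hw i) (Nat.cast_nonneg _)

theorem wt_mono {w : σ → ℝ} (hw : ∀ i, 0 ≤ w i) {α β : σ →₀ ℕ} (h : α ≤ β) :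
    wt w α ≤ wt w β :=
  Finset.sum_le_sum fun i _ => mul_le_mul_of_nonneg_left (by exact_mod_cast h i) (hw i)

theorem le_wt {w : σ → ℝ} (hw : ∀ i, 0 ≤ w i) (α : σ →₀ ℕ) (i : σ) : w i * α i ≤ wt w α :=
  Finset.single_le_sum (f := fun i => w i * (α i : ℝ))
    (fun i _ => mul_nonneg (hw i) (Nat.cast_nonneg _)) (Finset.mem_univ i)

theorem mem_simplex {w : σ → ℝ} (hw : ∀ i, 0 < w i) {X : ℝ} {α : σ →₀ ℕ} :
    α ∈ simplex w X ↔ wt w α < X := by
  classical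
  unfold simplex
  rw [Finset.mem_filter, Finset.mem_Iic]
  refine ⟨fun h => h.2, fun h => ⟨fun i => ?_, h⟩⟩
  have h1 := le_wt (fun i => (hw i).le) α i
  have h2 : (α i : ℝ) ≤ X / w i := by
    rw [le_div_iff₀ (hw i)]; linarith
  have h3 : (α i : ℝ) ≤ (⌈X / w i⌉₊ : ℝ) := h2.trans (Nat.le_ceil _)
  simpa using (by exact_mod_cast h3 : α i ≤ ⌈X / w i⌉₊)

theorem mem_F {w : σ → ℝ} {a : ℝ} {f : MvPolynomial σ ℂ} :
    f ∈ F w a ↔ ∀ α ∈ f.support, wt w α ≤ a := Iff.rfl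

theorem F_mono (w : σ → ℝ) : Monotone (F w) := fun _ _ h _ hf =>
  mem_F.2 fun α hα => (mem_F.1 hf α hα).trans h

theorem mul_mem_F {w : σ → ℝ} {a a' : ℝ} {f g : MvPolynomial σ ℂ} (hf : f ∈ F w a)
    (hg : g ∈ F w a') : f * g ∈ F w (a + a') := by
  classical
  refine mem_F.2 fun α hα => ?_
  obtain ⟨β, hβ, γ, hγ, rfl⟩ := Finset.mem_add.1 (support_mul f g hα)
  rw [wt_add]
  exact add_le_add (mem_F.1 hf β hβ) (mem_F.1 hg γ hγ)

theorem monomial_mem_F {w : σ → ℝ} {a : ℝ} {α : σ →₀ ℕ} (c : ℂ) (h : wt w α ≤ a) :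
    monomial α c ∈ F w a := by
  classical
  refine mem_F.2 fun β hβ => ?_
  have := support_monomial_subset hβ
  rw [Finset.mem_singleton] at this
  rwa [this]

theorem C_mem_F (w : σ → ℝ) {a : ℝ} (ha : 0 ≤ a) (c : ℂ) :
    (C c : MvPolynomial σ ℂ) ∈ F w a :=
  monomial_mem_F c (by rwa [wt_zero])

theorem one_mem_F (w : σ → ℝ) {a : ℝ} (ha : 0 ≤ a) : (1 : MvPolynomial σ ℂ) ∈ F w a :=
  C_mem_F w ha 1

theorem X_mem_F (w : σ → ℝ) (i : σ) : (X i : MvPolynomial σ ℂ) ∈ F w (w i) :=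
  monomial_mem_F 1 (by rw [wt_single]; simp)

theorem exists_mem_F (w : σ → ℝ) (f : MvPolynomial σ ℂ) : ∃ a, 0 ≤ a ∧ f ∈ F w a := by
  refine ⟨∑ α ∈ f.support, |wt w α|, Finset.sum_nonneg fun _ _ => abs_nonneg _, ?_⟩
  refine mem_F.2 fun α hα => (le_abs_self _).trans ?_
  exact Finset.single_le_sum (f := fun α => |wt w α|) (fun _ _ => abs_nonneg _) hα

theorem eq_zero_of_mem_F_neg {w : σ → ℝ} (hw : ∀ i, 0 ≤ w i) {a : ℝ} (ha : a < 0)
    {f : MvPolynomial σ ℂ} (hf : f ∈ F w a) : f = 0 := by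
  rw [← support_eq_empty, Finset.eq_empty_iff_forall_notMem]
  intro α hα
  have := mem_F.1 hf α hα
  have := wt_nonneg hw α
  linarith

omit [Fintype σ] in
theorem mem_support_pderiv {f : MvPolynomial σ ℂ} {i : σ} {α : σ →₀ ℕ}
    (h : α ∈ (pderiv i f).support) : α + Finsupp.single i 1 ∈ f.support := by
  classical
  rw [mem_support_iff] at h ⊢
  rw [coeff_pderiv] at h
  exact left_ne_zero_of_mul h

theorem pderiv_mem_F {w : σ → ℝ} {a : ℝ} {f : MvPolynomial σ ℂ} (i : σ) (hf : f ∈ F w a) :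
    pderiv i f ∈ F w (a - w i) := by
  refine mem_F.2 fun α hα => ?_
  have := mem_F.1 hf _ (mem_support_pderiv hα)
  rw [wt_add, wt_single] at this
  simp only [Nat.cast_one, mul_one] at this
  linarith

theorem mem_W {v : σ → ℝ} (hv : ∀ i, 0 ≤ v i) {b : ℝ} {f : MvPolynomial σ ℂ} :
    f ∈ W v b ↔ ∀ α ∈ f.support, b ≤ wt v α := by
  unfold W
  rw [mem_ideal_span_monomial_image]
  refine forall₂_congr fun α _ => ⟨?_, fun h => ⟨α, h, le_rfl⟩⟩
  rintro ⟨β, hβ, hle⟩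
  exact le_trans hβ (wt_mono hv hle)

theorem W_anti (v : σ → ℝ) : Antitone (W v) := fun _ _ h =>
  Ideal.span_mono (Set.image_mono fun _ hα => le_trans h hα)

theorem mul_mem_W {v : σ → ℝ} (hv : ∀ i, 0 ≤ v i) {b b' : ℝ} {f g : MvPolynomial σ ℂ}
    (hf : f ∈ W v b) (hg : g ∈ W v b') : f * g ∈ W v (b + b') := by
  classical
  refine (mem_W hv).2 fun α hα => ?_
  obtain ⟨β, hβ, γ, hγ, rfl⟩ := Finset.mem_add.1 (support_mul f g hα)
  rw [wt_add]
  exact add_le_add ((mem_W hv).1 hf β hβ) ((mem_W hv).1 hg γ hγ)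

theorem monomial_mem_W {v : σ → ℝ} {b : ℝ} {α : σ →₀ ℕ} (c : ℂ) (h : b ≤ wt v α) :
    monomial α c ∈ W v b := by
  have h1 : (monomial α (1 : ℂ)) ∈ W v b := Ideal.subset_span ⟨α, h, rfl⟩
  have : monomial α c = C c * monomial α (1 : ℂ) := by rw [C_mul_monomial, mul_one]
  rw [this]
  exact Ideal.mul_mem_left _ _ h1

theorem X_mem_W (v : σ → ℝ) (i : σ) : (X i : MvPolynomial σ ℂ) ∈ W v (v i) :=
  monomial_mem_W 1 (by rw [wt_single]; simp)

theorem X_pow_mem_W (v : σ → ℝ) (i : σ) (n : ℕ) :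
    (X i ^ n : MvPolynomial σ ℂ) ∈ W v (v i * n) := by
  rw [X_pow_eq_monomial]
  exact monomial_mem_W 1 (by rw [wt_single])

theorem mem_W_of_nonpos (v : σ → ℝ) {b : ℝ} (hb : b ≤ 0) (f : MvPolynomial σ ℂ) : f ∈ W v b := by
  have : (1 : MvPolynomial σ ℂ) ∈ W v b := monomial_mem_W 1 (by rwa [wt_zero])
  simpa using Ideal.mul_mem_left _ f this

theorem pderiv_mem_W {v : σ → ℝ} (hv : ∀ i, 0 ≤ v i) {b : ℝ} {f : MvPolynomial σ ℂ} (i : σ)
    (hf : f ∈ W v b) : pderiv i f ∈ W v (b - v i) := by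
  refine (mem_W hv).2 fun α hα => ?_
  have := (mem_W hv).1 hf _ (mem_support_pderiv hα)
  rw [wt_add, wt_single] at this
  simp only [Nat.cast_one, mul_one] at this
  linarith

theorem mem_W_of_X_mul {v : σ → ℝ} (hv : ∀ i, 0 ≤ v i) {b : ℝ} {f : MvPolynomial σ ℂ} (i : σ)
    (hf : X i * f ∈ W v b) : f ∈ W v (b - v i) := by
  classical
  refine (mem_W hv).2 fun α hα => ?_
  have h1 : Finsupp.single i 1 + α ∈ (X i * f).support := by
    rw [mem_support_iff] at hα ⊢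
    rwa [coeff_X_mul]
  have := (mem_W hv).1 hf _ h1
  rw [wt_add, wt_single] at this
  simp only [Nat.cast_one, mul_one] at this
  linarith

/-- Membership in `W v b` says that the coefficients of weight below `b` vanish. -/
theorem mem_W_iff_coeff {v : σ → ℝ} (hv : ∀ i, 0 ≤ v i) {b : ℝ} {f : MvPolynomial σ ℂ} :
    f ∈ W v b ↔ ∀ α, wt v α < b → coeff α f = 0 := by
  rw [mem_W hv]
  refine ⟨fun h α hα => ?_, fun h α hα => ?_⟩
  · by_contra h0
    exact absurd (h α (mem_support_iff.2 h0)) (not_le.2 hα)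
  · by_contra h0
    exact mem_support_iff.1 hα (h α (not_le.1 h0))

theorem Dw_nil {ι A : Type} [CommRing A] [Algebra ℂ A] (E : ι → Derivation ℂ A A) (f : A) :
    Dw E [] f = f := rfl

theorem Dw_cons {ι A : Type} [CommRing A] [Algebra ℂ A] (E : ι → Derivation ℂ A A) (i : ι)
    (L : List ι) (f : A) : Dw E (i :: L) f = Dw E L (E i f) := rfl

theorem Dw_append {ι A : Type} [CommRing A] [Algebra ℂ A] (E : ι → Derivation ℂ A A)
    (L L' : List ι) (f : A) : Dw E (L ++ L') f = Dw E L' (Dw E L f) := by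
  induction L generalizing f with
  | nil => rfl
  | cons i L ih => simp only [List.cons_append, Dw_cons, ih]

end Basic

end Vale.Agent.P021Z
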