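import Vale.Agent.P021Z.Nakai
import Mathlib.RingTheory.Ideal.Quotient.Operations
import Mathlib.RingTheory.Ideal.Maximal
import Mathlib.LinearAlgebra.Matrix.NonsingularInverse
import Mathlib.LinearAlgebra.Dimension.Constructions
import Mathlib.LinearAlgebra.FiniteDimensional.Defs

/-!
Consequences of the Nakai type lemma: interpolation at finitely many points from the key
inequality on primes, and extraction of a nonzero minor from a spanning family of columns.
-/

namespace Vale.Agent.P021Z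

open Function

/-- A spanning family of columns contains an invertible square matrix. -/
theorem exists_minor_ne_zero {K ι κ : Type*} [Field K] [Fintype ι] [DecidableEq ι]
    (col : κ → ι → K) (h : Submodule.span K (Set.range col) = ⊤) :
    ∃ c : ι → κ, Injective c ∧ (Matrix.of fun i i' => col (c i') i).det ≠ 0 := by
  obtain ⟨κ', a, ha, hsp, hli⟩ := exists_linearIndependent' K col
  rw [h] at hsp
  let b : Module.Basis κ' K (ι → K) := Module.Basis.mk hli hsp.ge
  let e : κ' ≃ ι := b.indexEquiv (Pi.basisFun K ι)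
  refine ⟨a ∘ e.symm, ha.comp e.symm.injective, ?_⟩
  have hl : LinearIndependent K (Matrix.of fun i i' => col ((a ∘ e.symm) i') i).col :=
    hli.comp e.symm e.symm.injective
  rw [Matrix.linearIndependent_cols_iff_isUnit, Matrix.isUnit_iff_isUnit_det] at hl
  exact hl.ne_zero

section

variable {A ι : Type*} [CommRing A] [Finite ι]

/-- Distributivity for pairwise coprime ideals. -/
theorem mem_iInf_sup_of_forall {I : ι → Ideal A} (hI : Pairwise (IsCoprime on I)) {p : Ideal A}
    {y : A} (hy : ∀ j, y ∈ I j ⊔ p) : y ∈ (⨅ j, I j) ⊔ p := by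
  classical
  cases nonempty_fintype ι
  choose a ha q hq e using fun j => Submodule.mem_sup.1 (hy j)
  choose d hd using fun j : ι => Ideal.exists_forall_sub_mem_ideal hI
    (fun i => if i = j then (1 : A) else 0)
  have hz : ∑ j, d j * q j ∈ p := p.sum_mem fun j _ => p.mul_mem_left _ (hq j)
  refine Submodule.mem_sup.2 ⟨y - ∑ j, d j * q j, ?_, _, hz, by ring⟩
  rw [Ideal.mem_iInf]
  intro i
  have e1 : y - ∑ j, d j * q j = a i - ∑ j, (d j - if i = j then 1 else 0) * q j := by
    simp only [sub_mul, Finset.sum_sub_distrib, ite_mul, one_mul, zero_mul, Finset.sum_ite_eq,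
      Finset.mem_univ, if_true]
    rw [← e i]; ring
  rw [e1]
  exact (I i).sub_mem (ha i) ((I i).sum_mem fun j _ => (I i).mul_mem_right _ (hd j i))

omit [Finite ι] in
/-- Ideals that contain powers of distinct maximal ideals are pairwise coprime. -/
theorem pairwise_coprime_of_pow_le {I m : ι → Ideal A} (hm : ∀ j, (m j).IsMaximal)
    (hinj : Injective m) (hI : ∀ j, ∃ n : ℕ, m j ^ n ≤ I j) : Pairwise (IsCoprime on I) := by
  intro i j hij
  obtain ⟨n, hn⟩ := hI i
  obtain ⟨n', hn'⟩ := hI j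
  have h1 : IsCoprime (m i) (m j) :=
    Ideal.isCoprime_iff_sup_eq.2 ((hm i).coprime_of_ne (hm j) (hinj.ne hij))
  have h2 : IsCoprime (m i ^ n) (m j ^ n') := h1.pow
  rw [Ideal.isCoprime_iff_sup_eq] at h2
  change IsCoprime (I i) (I j)
  rw [Ideal.isCoprime_iff_sup_eq, eq_top_iff, ← h2]
  exact sup_le_sup hn hn'

end

/-- Interpolation from the key inequality: all jets of order `s0 * H` at the finitely many points
`m j` are attained by elements of degree at most `H`, for all large `H`. -/
theorem interpolation_of_key {k A ι : Type*} [CommRing k] [CommRing A] [Algebra k A] [Finite ι]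
    [IsNoetherianRing A] {F : ℝ → Submodule k A} {J : ι → ℝ → Ideal A} {m : ι → Ideal A} {s0 : ℝ}
    (hFmono : Monotone F) (hFmul : ∀ a a' f g, f ∈ F a → g ∈ F a' → f * g ∈ F (a + a'))
    (hFex : ∀ f, ∃ a, f ∈ F a) (hF1 : (1 : A) ∈ F 0) (hJanti : ∀ j, Antitone (J j))
    (hJmul : ∀ j b b', J j b * J j b' ≤ J j (b + b')) (hs0 : 0 < s0)
    (hm : ∀ j, (m j).IsMaximal) (hinj : Injective m) (hpow : ∀ j b, ∃ n : ℕ, m j ^ n ≤ J j b)
    (hres : ∀ j g, ∃ c : k, g - algebraMap k A c ∈ m j)
    (hkey : ∀ p : Ideal A, p.IsPrime → (∃ j, p ≤ m j) → (∀ j, p ≠ m j) →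
      ∃ (Q : A) (a b : ℝ), Q ∉ p ∧ Q ∈ F a ∧ (∀ j, Q ∈ J j b ⊔ p) ∧ 0 < b ∧ s0 * a < b) :
    ∃ H0 : ℝ, ∀ H : ℝ, H0 ≤ H → ∀ g : ι → A, ∃ x ∈ F H, ∀ j, x - g j ∈ J j (s0 * H) := by
  have hcop : ∀ b, Pairwise (IsCoprime on fun j => J j b) := fun b =>
    pairwise_coprime_of_pow_le hm hinj fun j => hpow j b
  have hgood : Good F (fun b => ⨅ j, J j b) ⊥ s0 ⊥ := by
    refine good_bot_of_primes hFmono hFmul hFex ?_ ?_ ?_ hs0 ?_
    · intro b b' hb
      exact iInf_mono fun j => hJanti j hb
    · intro b b'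
      exact le_iInf fun j => le_trans (Ideal.mul_mono (iInf_le _ j) (iInf_le _ j)) (hJmul j b b')
    · intro u hu
      rw [Submonoid.mem_bot] at hu
      rwa [hu]
    · intro p hp hsteep
      by_cases h1 : ∃ j, p ≤ m j
      · by_cases h2 : ∀ j, p ≠ m j
        · obtain ⟨Q, a, b, hQ, hQa, hQb, hb, hab⟩ := hkey p hp h1 h2
          exact absurd (hsteep Q a b hQa (mem_iInf_sup_of_forall (hcop b) hQb) hb hab) hQ
        · push Not at h2
          obtain ⟨j, rfl⟩ := h2
          refine ⟨s0 + 1, by linarith, 0, fun H hH g => ?_⟩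
          obtain ⟨c, hc⟩ := hres j g
          refine ⟨1, Submonoid.one_mem _, algebraMap k A c, ?_, ?_⟩
          · rw [Algebra.algebraMap_eq_smul_one]
            exact (F H).smul_mem c (hFmono hH hF1)
          · rw [one_mul]
            exact Ideal.mem_sup_right hc
      · push Not at h1
        refine ⟨s0 + 1, by linarith, 0, fun H _ g => ⟨1, Submonoid.one_mem _, 0, (F H).zero_mem, ?_⟩⟩
        refine mem_iInf_sup_of_forall (hcop _) fun j => ?_
        obtain ⟨n, hn⟩ := hpow j ((s0 + 1) * H)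
        have h3 : m j ⊔ p = ⊤ := by
          by_contra hc
          have := (hm j).eq_of_le hc le_sup_left
          exact h1 j (this ▸ le_sup_right)
        have h4 : IsCoprime (m j ^ n) p := (Ideal.isCoprime_iff_sup_eq.2 h3).pow_left
        rw [Ideal.isCoprime_iff_sup_eq] at h4
        exact sup_le_sup_right hn p (h4 ▸ Submodule.mem_top)
  obtain ⟨s, hs, H0, hH⟩ := hgood
  refine ⟨max H0 0, fun H hH0 g => ?_⟩
  have hH1 : 0 ≤ H := le_trans (le_max_right _ _) hH0
  obtain ⟨y, hy⟩ := Ideal.exists_forall_sub_mem_ideal (hcop (s0 * H)) g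
  obtain ⟨u, hu, x, hx, hux⟩ := hH H (le_trans (le_max_left _ _) hH0) y
  rw [Submonoid.mem_bot] at hu
  subst hu
  rw [one_mul, sup_bot_eq, Ideal.mem_iInf] at hux
  refine ⟨x, hx, fun j => ?_⟩
  have e : x - g j = (y - g j) - (y - x) := by ring
  rw [e]
  exact (J j _).sub_mem (hy j) (hJanti j (by nlinarith) (hux j))

end Vale.Agent.P021Z
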