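import Vale.Agent.P021Z.Basic
import Vale.Agent.P021Z.NakaiApp

/-! The local coordinates at the centres, the ideals `Ij`, `I`, `cm` and the derivations `D`. -/

open MvPolynomial

noncomputable section

namespace Vale.Agent.P021Z

section Centres
variable {m : ℕ} {θ : ℝ} {w v : Fin (m + 1) → ℝ} {r : Fin m → ℂ} {T : Fin m → ℕ} {K : ℕ}

theorem derivation_sum_apply {ι : Type} (s : Finset ι) (E : ι → Derivation ℂ (R m) (R m))
    (f : R m) : (∑ i ∈ s, E i) f = ∑ i ∈ s, E i f := by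
  classical
  induction s using Finset.induction_on with
  | empty => simp
  | insert a s ha ih => rw [Finset.sum_insert ha, Finset.sum_insert ha, Derivation.add_apply, ih]

theorem D_zero_apply (f : R m) :
    D 0 f = X 0 * pderiv 0 f + ∑ i : Fin m, pderiv i.succ f := by
  simp [D, derivation_sum_apply]

theorem D_succ (i : Fin m) : (D i.succ : Derivation ℂ (R m) (R m)) = pderiv i.succ := by
  simp [D]

theorem D_mem_F (hw : ∀ i, 0 ≤ w i) {a : ℝ} {f : R m} (i : Fin (m + 1)) (hf : f ∈ F w a) :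
    D i f ∈ F w a := by
  have hp : ∀ k, pderiv k f ∈ F w a := fun k =>
    F_mono w (by linarith [hw k]) (pderiv_mem_F k hf)
  refine Fin.cases ?_ (fun i => ?_) i
  · rw [D_zero_apply]
    refine (F w a).add_mem ?_ ((F w a).sum_mem fun i _ => hp _)
    have := mul_mem_F (X_mem_F w 0) (pderiv_mem_F 0 hf)
    rwa [add_sub_cancel] at this
  · rw [D_succ]; exact hp _

theorem Dw_mem_F (hw : ∀ i, 0 ≤ w i) {a : ℝ} {f : R m} (L : List (Fin (m + 1)))
    (hf : f ∈ F w a) : Dw D L f ∈ F w a := by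
  induction L generalizing f with
  | nil => exact hf
  | cons i L ih => exact ih (D_mem_F hw i hf)

theorem phi_X_zero (r : Fin m → ℂ) (T : Fin m → ℕ) (j : ℕ) : phi r T j (X 0) = 1 + X 0 := by
  simp [phi]

theorem phi_X_succ (r : Fin m → ℂ) (T : Fin m → ℕ) (j : ℕ) (i : Fin m) :
    phi r T j (X i.succ) =
      C ((j : ℂ) * r i) + Polynomial.aeval (X 0 : R m) (logTrunc (T i)) + X i.succ := by
  simp [phi]

theorem phi_C (r : Fin m → ℂ) (T : Fin m → ℕ) (j : ℕ) (c : ℂ) : phi r T j (C c) = C c :=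
  (phi r T j).commutes c

theorem phi_Y_sub_one (r : Fin m → ℂ) (T : Fin m → ℕ) (j : ℕ) : phi r T j (X 0 - 1) = X 0 := by
  rw [map_sub, phi_X_zero, map_one]; ring

theorem phi_u (r : Fin m → ℂ) (T : Fin m → ℕ) (j : ℕ) (i : Fin m) :
    phi r T j (X i.succ - C ((j : ℂ) * r i) - Polynomial.aeval (X 0 - 1 : R m) (logTrunc (T i))) =
      X i.succ := by
  rw [map_sub, map_sub, phi_X_succ, phi_C, ← Polynomial.aeval_algHom_apply, phi_Y_sub_one]
  ring

theorem phi_surjective (r : Fin m → ℂ) (T : Fin m → ℕ) (j : ℕ) :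
    Function.Surjective (phi r T j) := by
  intro g
  induction g using MvPolynomial.induction_on with
  | C c => exact ⟨C c, phi_C r T j c⟩
  | add p q hp hq =>
    obtain ⟨p', rfl⟩ := hp
    obtain ⟨q', rfl⟩ := hq
    exact ⟨p' + q', map_add _ _ _⟩
  | mul_X p i hp =>
    obtain ⟨p', rfl⟩ := hp
    refine Fin.cases ?_ (fun i => ?_) i
    · exact ⟨p' * (X 0 - 1), by rw [map_mul, phi_Y_sub_one]⟩
    · exact ⟨p' * _, by rw [map_mul, phi_u]⟩

theorem mem_Ij {j : ℕ} {b : ℝ} {f : R m} : f ∈ Ij v r T j b ↔ phi r T j f ∈ W v b := Iff.rfl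

theorem mem_I {b : ℝ} {f : R m} : f ∈ I v r T K b ↔ ∀ j < K, f ∈ Ij v r T j b := by
  unfold I
  rw [Ideal.mem_iInf]
  exact ⟨fun h j hj => h ⟨j, hj⟩, fun h j => h j j.2⟩

theorem Ij_anti (j : ℕ) : Antitone (Ij v r T j) := fun _ _ h _ hf => W_anti v h hf

theorem I_anti : Antitone (I v r T K) := fun _ _ h _ hf =>
  mem_I.2 fun j hj => Ij_anti j h (mem_I.1 hf j hj)

theorem mul_mem_Ij (hv : ∀ i, 0 ≤ v i) {j : ℕ} {b b' : ℝ} {f g : R m} (hf : f ∈ Ij v r T j b)
    (hg : g ∈ Ij v r T j b') : f * g ∈ Ij v r T j (b + b') := by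
  rw [mem_Ij, map_mul]
  exact mul_mem_W hv hf hg

theorem Ij_mul_le (hv : ∀ i, 0 ≤ v i) (j : ℕ) (b b' : ℝ) :
    Ij v r T j b * Ij v r T j b' ≤ Ij v r T j (b + b') :=
  Ideal.mul_le.2 fun _ hf _ hg => mul_mem_Ij hv hf hg

theorem mul_mem_I (hv : ∀ i, 0 ≤ v i) {b b' : ℝ} {f g : R m} (hf : f ∈ I v r T K b)
    (hg : g ∈ I v r T K b') : f * g ∈ I v r T K (b + b') :=
  mem_I.2 fun j hj => mul_mem_Ij hv (mem_I.1 hf j hj) (mem_I.1 hg j hj)

theorem mem_cm {j : ℕ} {f : R m} : f ∈ cm r j ↔ eval (ctr r j) f = 0 := Iff.rfl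

theorem cm_isMaximal (r : Fin m → ℂ) (j : ℕ) : (cm r j).IsMaximal :=
  RingHom.ker_isMaximal_of_surjective _ fun c => ⟨C c, eval_C _⟩

theorem sub_C_mem_cm (j : ℕ) (f : R m) : f - C (eval (ctr r j) f) ∈ cm r j := by
  rw [mem_cm]; simp

theorem ctr_zero (r : Fin m → ℂ) (j : ℕ) : ctr r j 0 = 1 := rfl

theorem ctr_succ (r : Fin m → ℂ) (j : ℕ) (i : Fin m) : ctr r j i.succ = (j : ℂ) * r i := rfl

theorem cm_eq_span (r : Fin m → ℂ) (j : ℕ) :
    cm r j = Ideal.span (Set.range fun i => (X i - C (ctr r j i) : R m)) := by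
  apply le_antisymm
  · have key : ∀ f : R m, f - C (eval (ctr r j) f) ∈
        Ideal.span (Set.range fun i => (X i - C (ctr r j i) : R m)) := by
      intro f
      induction f using MvPolynomial.induction_on with
      | C c => simp
      | add p q hp hq =>
        have := Ideal.add_mem _ hp hq
        rw [map_add, map_add]
        convert this using 1
        ring
      | mul_X p i hp =>
        have h1 : (X i - C (ctr r j i) : R m) ∈
            Ideal.span (Set.range fun i => (X i - C (ctr r j i) : R m)) :=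
          Ideal.subset_span ⟨i, rfl⟩
        have := Ideal.add_mem _ (Ideal.mul_mem_right (X i) _ hp)
          (Ideal.mul_mem_left _ (C (eval (ctr r j) p)) h1)
        rw [map_mul, eval_X, map_mul]
        convert this using 1
        ring
    intro f hf
    have := key f
    rwa [mem_cm.1 hf, map_zero, sub_zero] at this
  · rw [Ideal.span_le]
    rintro _ ⟨i, rfl⟩
    change _ ∈ cm r j
    rw [mem_cm]; simp

theorem X_dvd_logTrunc (T : ℕ) : Polynomial.X ∣ logTrunc T :=
  Finset.dvd_sum fun k _ => Dvd.dvd.mul_left (dvd_pow_self _ (Nat.succ_ne_zero k)) _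

theorem constantCoeff_phi (r : Fin m → ℂ) (T : Fin m → ℕ) (j : ℕ) (f : R m) :
    constantCoeff (phi r T j f) = eval (ctr r j) f := by
  induction f using MvPolynomial.induction_on with
  | C c => rw [phi_C]; simp
  | add p q hp hq => simp only [map_add, hp, hq]
  | mul_X p i hp =>
    simp only [map_mul, hp, eval_X]
    congr 1
    refine Fin.cases ?_ (fun i => ?_) i
    · rw [phi_X_zero, ctr_zero]; simp
    · rw [phi_X_succ, ctr_succ]
      obtain ⟨c, hc⟩ := X_dvd_logTrunc (T i)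
      rw [hc]
      simp

theorem Ij_le_cm (hv : ∀ i, 0 ≤ v i) (j : ℕ) {b : ℝ} (hb : 0 < b) : Ij v r T j b ≤ cm r j := by
  intro f hf
  rw [mem_cm, ← constantCoeff_phi r T j, constantCoeff_eq]
  exact (mem_W_iff_coeff hv).1 hf 0 (by rwa [wt_zero])

theorem cm_le_Ij (hv : ∀ i, 0 ≤ v i) (j : ℕ) {δ : ℝ} (hδ : ∀ i, δ ≤ v i) :
    cm r j ≤ Ij v r T j δ := by
  intro f hf
  rw [mem_cm, ← constantCoeff_phi r T j, constantCoeff_eq] at hf
  refine (mem_W hv).2 fun α hα => ?_
  have h0 : α ≠ 0 := by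
    rintro rfl
    exact mem_support_iff.1 hα hf
  obtain ⟨i, hi⟩ : ∃ i, α i ≠ 0 := by
    by_contra h
    push Not at h
    exact h0 (Finsupp.ext h)
  have h1 : (1 : ℝ) ≤ α i := by exact_mod_cast Nat.one_le_iff_ne_zero.2 hi
  have := le_wt hv α i
  nlinarith [hδ i, hv i]

theorem exists_cm_pow_le (hv : ∀ i, 0 < v i) (j : ℕ) (b : ℝ) :
    ∃ n : ℕ, cm r j ^ n ≤ Ij v r T j b := by
  have hv' : ∀ i, 0 ≤ v i := fun i => (hv i).le
  obtain ⟨i0, hi0⟩ := Finite.exists_min v
  have hpow : ∀ n : ℕ, cm r j ^ n ≤ Ij v r T j (n * v i0) := by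
    intro n
    induction n with
    | zero => exact fun f _ => mem_W_of_nonpos v (by simp) _
    | succ n ih =>
      rw [pow_succ]
      refine le_trans (Ideal.mul_mono ih (cm_le_Ij (T := T) hv' j hi0)) ?_
      have := Ij_mul_le (r := r) (T := T) hv' j (n * v i0) (v i0)
      convert this using 2
      push_cast; ring
  obtain ⟨n, hn⟩ := exists_nat_ge (b / v i0)
  refine ⟨n, (hpow n).trans (Ij_anti j ?_)⟩
  rwa [div_le_iff₀ (hv i0)] at hn

/-- An ideal not inside the maximal ideal of the centre `j` is comaximal with every `Ij`. -/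
theorem Ij_sup_eq_top (hv : ∀ i, 0 < v i) {j : ℕ} {p : Ideal (R m)} (hp : ¬ p ≤ cm r j) (b : ℝ) :
    Ij v r T j b ⊔ p = ⊤ := by
  obtain ⟨n, hn⟩ := exists_cm_pow_le (r := r) (T := T) hv j b
  have h1 : cm r j ⊔ p = ⊤ := by
    refine (cm_isMaximal r j).1.2 _ (lt_of_le_of_ne le_sup_left fun h => hp ?_)
    rw [h]; exact le_sup_right
  have h2 : cm r j ^ n ⊔ p = ⊤ := Ideal.pow_sup_eq_top h1
  rw [eq_top_iff, ← h2]
  exact sup_le_sup_right hn p

theorem cm_injective (hm : 0 < m) (hr : ∀ i, r i ≠ 0) : Function.Injective (cm r) := by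
  intro j j' h
  have h1 : (X (⟨0, hm⟩ : Fin m).succ - C ((j : ℂ) * r ⟨0, hm⟩) : R m) ∈ cm r j := by
    rw [mem_cm]; simp only [map_sub, eval_X, ctr_succ, eval_C, sub_self]
  rw [h, mem_cm] at h1
  simp only [map_sub, eval_X, ctr_succ, eval_C] at h1
  have h2 : ((j' : ℂ) - j) * r ⟨0, hm⟩ = 0 := by linear_combination h1
  have h3 := (mul_eq_zero.1 h2).resolve_right (hr _)
  exact_mod_cast (sub_eq_zero.1 h3).symm

theorem isCoprime_Ij (hm : 0 < m) (hv : ∀ i, 0 < v i) (hr : ∀ i, r i ≠ 0) {j j' : ℕ} (h : j ≠ j')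
    (b : ℝ) : IsCoprime (Ij v r T j b) (Ij v r T j' b) :=
  pairwise_coprime_of_pow_le (I := fun j => Ij v r T j b) (m := cm r) (cm_isMaximal r)
    (cm_injective hm hr) (fun j => exists_cm_pow_le hv j b) h

theorem mem_I_sup (hm : 0 < m) (hv : ∀ i, 0 < v i) (hr : ∀ i, r i ≠ 0) {b : ℝ} {p : Ideal (R m)}
    {f : R m} (h : ∀ j < K, f ∈ Ij v r T j b ⊔ p) : f ∈ I v r T K b ⊔ p :=
  mem_iInf_sup_of_forall (I := fun j : Fin K => Ij v r T j b)
    (fun _ _ hjj' => isCoprime_Ij hm hv hr (fun e => hjj' (Fin.ext e)) b) fun j => h j j.2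

/-- An algebra map that intertwines two derivations on the variables intertwines them. -/
theorem map_derivation_of_X (φ : R m →ₐ[ℂ] R m) (E E' : Derivation ℂ (R m) (R m))
    (h : ∀ k, φ (E (X k)) = E' (φ (X k))) (f : R m) : φ (E f) = E' (φ f) := by
  induction f using MvPolynomial.induction_on with
  | C c =>
    have h1 : φ (C c) = C c := φ.commutes c
    rw [h1, derivation_C, derivation_C, map_zero]
  | add p q hp hq => simp only [map_add, hp, hq]
  | mul_X p i hp =>
    simp only [map_mul, Derivation.leibniz, smul_eq_mul, map_add, hp, h]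

theorem one_add_X_mul_derivative_logTrunc (T : ℕ) :
    (1 + Polynomial.X) * Polynomial.derivative (logTrunc T) + (-Polynomial.X) ^ T = 1 := by
  induction T with
  | zero => simp [logTrunc]
  | succ T ih =>
    have e : logTrunc (T + 1) =
        logTrunc T + Polynomial.C ((-1) ^ T / ((T : ℂ) + 1)) * Polynomial.X ^ (T + 1) := by
      simp [logTrunc, Finset.sum_range_succ]
    have hT : ((T : ℂ) + 1) ≠ 0 := by exact_mod_cast Nat.succ_ne_zero T
    have e2 : Polynomial.derivative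
        (Polynomial.C ((-1) ^ T / ((T : ℂ) + 1)) * Polynomial.X ^ (T + 1)) =
          (-Polynomial.X) ^ T := by
      rw [Polynomial.derivative_C_mul_X_pow, Nat.add_sub_cancel]
      push_cast
      rw [div_mul_cancel₀ _ hT, neg_pow (Polynomial.X : Polynomial ℂ)]
      simp
    rw [e, map_add, e2, pow_succ]
    linear_combination ih

/-- The derivation `D 0` in the local coordinates. -/
def Dt (T : Fin m → ℕ) : Derivation ℂ (R m) (R m) :=
  (1 + X 0 : R m) • pderiv 0 + ∑ i : Fin m, ((-X 0 : R m) ^ T i) • pderiv i.succ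

theorem Dt_apply (T : Fin m → ℕ) (f : R m) :
    Dt T f = (1 + X 0) * pderiv 0 f + ∑ i : Fin m, (-X 0) ^ T i * pderiv i.succ f := by
  simp [Dt, derivation_sum_apply]

theorem pderiv_succ_phi_X_succ (r : Fin m → ℂ) (T : Fin m → ℕ) (j : ℕ) (i k : Fin m) :
    pderiv i.succ (phi r T j (X k.succ)) = pderiv i.succ (X k.succ : R m) := by
  rw [phi_X_succ, map_add, map_add, pderiv_C, Derivation.map_aeval,
    pderiv_X_of_ne (Fin.succ_ne_zero i).symm]
  simp

theorem phi_pderiv_succ (r : Fin m → ℂ) (T : Fin m → ℕ) (j : ℕ) (i : Fin m) (f : R m) :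
    phi r T j (pderiv i.succ f) = pderiv i.succ (phi r T j f) := by
  refine map_derivation_of_X _ _ _ (fun k => ?_) f
  refine Fin.cases ?_ (fun k => ?_) k
  · rw [phi_X_zero, map_add, pderiv_X_of_ne (Fin.succ_ne_zero i).symm]
    simp
  · rw [pderiv_succ_phi_X_succ]
    by_cases h : k = i
    · subst h; simp
    · rw [pderiv_X_of_ne (fun e => h (Fin.succ_injective _ e))]; simp

theorem phi_D_zero (r : Fin m → ℂ) (T : Fin m → ℕ) (j : ℕ) (f : R m) :
    phi r T j (D 0 f) = Dt T (phi r T j f) := by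
  refine map_derivation_of_X _ _ _ (fun k => ?_) f
  refine Fin.cases ?_ (fun k => ?_) k
  · have h0 : ∀ i : Fin m, pderiv i.succ (X 0 : R m) = 0 := fun i =>
      pderiv_X_of_ne (Fin.succ_ne_zero i).symm
    rw [D_zero_apply, Dt_apply, phi_X_zero]
    simp [h0, phi_X_zero]
  · have h1 : ∀ c : Fin m → R m,
        ∑ i : Fin m, c i * pderiv i.succ (X k.succ : R m) = c k := by
      intro c
      rw [Finset.sum_eq_single k]
      · simp
      · intro i _ hi
        rw [pderiv_X_of_ne (fun e => hi (Fin.succ_injective _ e).symm), mul_zero]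
      · simp
    have h2 : D 0 (X k.succ : R m) = 1 := by
      have := h1 fun _ => 1
      simp only [one_mul] at this
      rw [D_zero_apply, this, pderiv_X_of_ne (Fin.succ_ne_zero k)]
      simp
    rw [h2, map_one, Dt_apply]
    simp only [pderiv_succ_phi_X_succ]
    rw [h1, phi_X_succ, map_add, map_add, pderiv_C, Derivation.map_aeval,
      pderiv_X_of_ne (Fin.succ_ne_zero k), pderiv_X_self]
    have := congrArg (Polynomial.aeval (X 0 : R m)) (one_add_X_mul_derivative_logTrunc (T k))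
    simp only [map_add, map_mul, map_one, Polynomial.aeval_X, map_pow, map_neg] at this
    simp only [smul_eq_mul, mul_one, zero_add, add_zero]
    exact this.symm

theorem D_mem_Ij (hS : Setup θ w v r T) {j : ℕ} {b : ℝ} {f : R m} (i : Fin (m + 1))
    (hf : f ∈ Ij v r T j b) : D i f ∈ Ij v r T j (b - v i) := by
  have hv : ∀ i, 0 ≤ v i := fun i => (hS.vpos i).le
  rw [mem_Ij] at hf ⊢
  refine Fin.cases ?_ (fun i => ?_) i
  · rw [phi_D_zero, Dt_apply]
    refine Ideal.add_mem _ (Ideal.mul_mem_left _ _ (pderiv_mem_W hv 0 hf))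
      (Ideal.sum_mem _ fun i _ => ?_)
    have h1 := mul_mem_W hv (X_pow_mem_W v 0 (T i)) (pderiv_mem_W hv i.succ hf)
    have h2 : X 0 ^ T i * pderiv i.succ (phi r T j f) ∈ W v (b - v 0) :=
      W_anti v (by nlinarith [hS.Tge i]) h1
    rw [neg_pow, mul_assoc]
    exact Ideal.mul_mem_left _ _ h2
  · rw [D_succ, phi_pderiv_succ]
    exact pderiv_mem_W hv _ hf

theorem D_mem_I (hS : Setup θ w v r T) {b : ℝ} {f : R m} (i : Fin (m + 1))
    (hf : f ∈ I v r T K b) : D i f ∈ I v r T K (b - v i) :=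
  mem_I.2 fun j hj => D_mem_Ij hS i (mem_I.1 hf j hj)

theorem Dw_mem_I (hS : Setup θ w v r T) {b : ℝ} {f : R m} (L : List (Fin (m + 1)))
    (hf : f ∈ I v r T K b) : Dw D L f ∈ I v r T K (b - (L.map v).sum) := by
  induction L generalizing f b with
  | nil => simpa [Dw_nil] using hf
  | cons i L ih =>
    have := ih (D_mem_I hS i hf)
    rw [Dw_cons, List.map_cons, List.sum_cons, ← sub_sub]
    exact this

theorem mem_F_of_Y_mul (hw : ∀ i, 0 < w i) {a : ℝ} {P : R m} (h : (X 0 - 1) * P ∈ F w a) :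
    P ∈ F w (a - w 0) := by
  classical
  rcases P.support.eq_empty_or_nonempty with h0 | h0
  · exact mem_F.2 fun α hα => by simp [h0] at hα
  obtain ⟨α, hα, hmax⟩ := P.support.exists_max_image (wt w) h0
  have hwt : wt w (Finsupp.single 0 1 + α) = w 0 + wt w α := by
    rw [wt_add, wt_single]; simp
  have h1 : coeff (Finsupp.single 0 1 + α) P = 0 := by
    by_contra hne
    have := hmax _ (mem_support_iff.2 hne)
    rw [hwt] at this
    linarith [hw 0]
  have h2 : Finsupp.single 0 1 + α ∈ ((X 0 - 1) * P).support := by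
    rw [mem_support_iff, sub_mul, one_mul, coeff_sub, coeff_X_mul, h1, sub_zero]
    exact mem_support_iff.1 hα
  have h3 := mem_F.1 h _ h2
  rw [hwt] at h3
  exact mem_F.2 fun β hβ => by linarith [hmax β hβ]

theorem mem_I_of_Y_mul (hv : ∀ i, 0 ≤ v i) {b : ℝ} {P : R m}
    (h : (X 0 - 1) * P ∈ I v r T K b) : P ∈ I v r T K (b - v 0) := by
  refine mem_I.2 fun j hj => ?_
  have := mem_I.1 h j hj
  rw [mem_Ij, map_mul, phi_Y_sub_one] at this
  exact mem_W_of_X_mul hv 0 this

theorem X_sub_mem_Ij_sup (j : ℕ) (i : Fin m) :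
    (X i.succ - C ((j : ℂ) * r i) : R m) ∈
      Ij v r T j (v i.succ) ⊔ Ideal.span {(X 0 - 1 : R m)} := by
  refine Submodule.mem_sup.2 ⟨X i.succ - C ((j : ℂ) * r i) -
    Polynomial.aeval (X 0 - 1 : R m) (logTrunc (T i)), ?_,
    Polynomial.aeval (X 0 - 1 : R m) (logTrunc (T i)), ?_, by ring⟩
  · rw [mem_Ij, phi_u]; exact X_mem_W v _
  · obtain ⟨c, hc⟩ := X_dvd_logTrunc (T i)
    rw [hc, map_mul, Polynomial.aeval_X]
    exact Ideal.mul_mem_right _ _ (Ideal.subset_span rfl)

end Centres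

end Vale.Agent.P021Z
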