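import Mathlib

/-!
Shared definitions for the proof that the irrationality exponent of `π` is `2`.

`R m = ℂ[Y, X_1, ..., X_m]` with `X 0 = Y`. After applying `phi r T j` the same ring is read as
`ℂ[t, u_1, ..., u_m]` with `X 0 = t`.
-/

open MvPolynomial

noncomputable section

namespace Vale.Agent.P021Z

/-- The polynomial ring in `Y = X 0` and `X_1, ..., X_m`. -/
abbrev R (m : ℕ) : Type := MvPolynomial (Fin (m + 1)) ℂ

/-- The weight of an exponent vector. -/
def wt {σ : Type} [Fintype σ] (w : σ → ℝ) (α : σ →₀ ℕ) : ℝ := ∑ i, w i * (α i : ℝ)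

open Classical in
/-- The exponent vectors of weight `< X` (for positive weights, see `mem_simplex`). -/
def simplex {σ : Type} [Fintype σ] (w : σ → ℝ) (X : ℝ) : Finset (σ →₀ ℕ) :=
  (Finset.Iic (Finsupp.equivFunOnFinite.symm fun i => ⌈X / w i⌉₊)).filter fun α => wt w α < X

/-- Polynomials of weighted degree at most `a`. -/
def F {σ : Type} [Fintype σ] (w : σ → ℝ) (a : ℝ) : Submodule ℂ (MvPolynomial σ ℂ) :=
  restrictSupport ℂ {α | wt w α ≤ a}

/-- The ideal of polynomials of weighted order at least `b` at the origin. -/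
def W {σ : Type} [Fintype σ] (v : σ → ℝ) (b : ℝ) : Ideal (MvPolynomial σ ℂ) :=
  Ideal.span ((fun α => monomial α (1 : ℂ)) '' {α | b ≤ wt v α})

/-- The Taylor polynomial of `log (1 + t)` of degree `T`. -/
def logTrunc (T : ℕ) : Polynomial ℂ :=
  ∑ k ∈ Finset.range T, Polynomial.C ((-1) ^ k / ((k : ℂ) + 1)) * Polynomial.X ^ (k + 1)

/-- Local coordinates at the centre `(1, j r_1, ..., j r_m)`:
`Y = 1 + t`, `X_i = j r_i + G_i(t) + u_i`. -/
def phi {m : ℕ} (r : Fin m → ℂ) (T : Fin m → ℕ) (j : ℕ) : R m →ₐ[ℂ] R m :=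
  aeval (Fin.cases (1 + X 0) fun i =>
    C ((j : ℂ) * r i) + Polynomial.aeval (X 0 : R m) (logTrunc (T i)) + X i.succ)

/-- Polynomials of weighted order at least `b` at the centre number `j`. -/
def Ij {m : ℕ} (v : Fin (m + 1) → ℝ) (r : Fin m → ℂ) (T : Fin m → ℕ) (j : ℕ) (b : ℝ) :
    Ideal (R m) :=
  (W v b).comap (phi r T j)

/-- Polynomials of weighted order at least `b` at each of the centres `j < K`. -/
def I {m : ℕ} (v : Fin (m + 1) → ℝ) (r : Fin m → ℂ) (T : Fin m → ℕ) (K : ℕ) (b : ℝ) :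
    Ideal (R m) :=
  ⨅ j : Fin K, Ij v r T j b

/-- The coordinates of the centre number `j`. -/
def ctr {m : ℕ} (r : Fin m → ℂ) (j : ℕ) : Fin (m + 1) → ℂ :=
  Fin.cases 1 fun i => (j : ℂ) * r i

/-- The maximal ideal of the centre number `j`. -/
def cm {m : ℕ} (r : Fin m → ℂ) (j : ℕ) : Ideal (R m) :=
  RingHom.ker (eval (ctr r j))

/-- The invariant derivations `D 0 = Y ∂_Y + ∑ ∂_i` and `D i = ∂_i`. -/
def D {m : ℕ} : Fin (m + 1) → Derivation ℂ (R m) (R m) :=
  Fin.cases ((X 0 : R m) • pderiv 0 + ∑ i : Fin m, pderiv i.succ) fun i => pderiv i.succ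

/-- Iterated derivations along a word (the head of the word is applied first). -/
def Dw {ι A : Type} [CommRing A] [Algebra ℂ A] (E : ι → Derivation ℂ A A) : List ι → A → A
  | [], f => f
  | i :: L, f => Dw E L (E i f)

/-- The standing hypotheses on the weights, the truncation orders and the centres. -/
structure Setup {m : ℕ} (θ : ℝ) (w v : Fin (m + 1) → ℝ) (r : Fin m → ℂ) (T : Fin m → ℕ) :
    Prop where
  θpos : 0 < θ
  θlt : θ < 1
  wpos : ∀ i, 0 < w i
  vpos : ∀ i, 0 < v i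
  v0le : v 0 ≤ w 0
  vsucc : ∀ i : Fin m, v i.succ = w i.succ / θ
  Tge : ∀ i : Fin m, v i.succ ≤ ((T i : ℝ) + 1) * v 0
  rne : ∀ i, r i ≠ 0

end Vale.Agent.P021Z
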