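import Vale.Agent.P021Z.Basic
import Vale.Agent.P021Z.Count

/-!
Existence of a nonzero polynomial of bounded degree with high order at all the centres,
by counting unknowns and equations.
-/

open MvPolynomial Filter Topology

noncomputable section

namespace Vale.Agent.P021Z

theorem exists_aux_of_card_lt {m K : ℕ} {w v : Fin (m + 1) → ℝ} (hv : ∀ i, 0 < v i)
    (r : Fin m → ℂ) (T : Fin m → ℕ) {a b : ℝ}
    (h : K * (simplex v b).card < (simplex w a).card) :
    ∃ P : R m, P ≠ 0 ∧ P ∈ F w a ∧ P ∈ I v r T K b := by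
  classical
  let col : ↥(simplex w a) → (Fin K × ↥(simplex v b) → ℂ) := fun α ρ =>
    coeff ρ.2.1 (phi r T ρ.1 (monomial α.1 1))
  have hdep : ¬ LinearIndependent ℂ col := by
    intro hli
    have h1 := hli.fintype_card_le_finrank
    rw [Module.finrank_fintype_fun_eq_card, Fintype.card_prod, Fintype.card_fin,
      Fintype.card_coe, Fintype.card_coe] at h1
    omega
  obtain ⟨c, hc, α0, hα0⟩ := Fintype.not_linearIndependent_iff.1 hdep
  refine ⟨∑ α : ↥(simplex w a), c α • monomial α.1 (1 : ℂ), ?_, ?_, ?_⟩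
  · intro h0
    have h1 := congrArg (coeff α0.1) h0
    rw [coeff_sum, Finset.sum_eq_single α0] at h1
    · simp [hα0] at h1
    · intro α _ hne
      rw [coeff_smul, coeff_monomial, if_neg (fun e => hne (Subtype.ext e)), smul_zero]
    · intro h2
      exact absurd (Finset.mem_univ _) h2
  · exact Submodule.sum_mem _ fun α _ => Submodule.smul_mem _ _
      (monomial_mem_F 1 (lt_of_mem_simplex α.2).le)
  · unfold I
    rw [Ideal.mem_iInf]
    intro j
    unfold Ij
    rw [Ideal.mem_comap, mem_W_iff_coeff fun i => (hv i).le]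
    intro β hβ
    have h1 := congrFun hc (j, ⟨β, mem_simplex_of_lt hv hβ⟩)
    rw [Finset.sum_apply] at h1
    rw [map_sum, coeff_sum]
    refine Eq.trans (Finset.sum_congr rfl fun α _ => ?_) h1
    rw [map_smul, coeff_smul]
    rfl

theorem exists_aux {m K : ℕ} {θ : ℝ} {w v : Fin (m + 1) → ℝ} {r : Fin m → ℂ} {T : Fin m → ℕ}
    (hS : Setup θ w v r T) {μ0 : ℝ} (hμ : 0 < μ0)
    (hvol : (K : ℝ) * μ0 ^ (m + 1) * θ ^ m * w 0 < v 0) :
    ∃ a, 0 < a ∧ ∃ P : R m, P ≠ 0 ∧ P ∈ F w a ∧ P ∈ I v r T K (μ0 * a) := by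
  set S : ℝ := ∑ i, v i with hSdef
  have hcont : Tendsto (fun a : ℝ => (K : ℝ) * (μ0 + S / a) ^ (m + 1) * θ ^ m * w 0) atTop
      (𝓝 ((K : ℝ) * (μ0 + 0) ^ (m + 1) * θ ^ m * w 0)) :=
    ((((tendsto_const_nhds.add (tendsto_const_nhds.div_atTop tendsto_id)).pow _).const_mul
      _).mul_const _).mul_const _
  rw [add_zero] at hcont
  obtain ⟨a, ha1, ha0⟩ := ((hcont.eventually (gt_mem_nhds hvol)).and (eventually_gt_atTop 0)).exists
  refine ⟨a, ha0, exists_aux_of_card_lt hS.vpos r T ?_⟩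
  have h1 := card_simplex_upper hS.vpos (X := μ0 * a) (by positivity)
  have h2 := card_simplex_lower hS.wpos ha0
  rw [Fintype.card_fin, Fin.prod_univ_succ] at h1 h2
  rw [← hSdef] at h1
  set Pw : ℝ := ∏ i : Fin m, w i.succ with hPw
  have hPw0 : 0 < Pw := Finset.prod_pos fun i _ => hS.wpos _
  have hθ := hS.θpos
  have hw0 := hS.wpos 0
  have hv0 := hS.vpos 0
  have hfac : (0 : ℝ) < (m + 1).factorial := by exact_mod_cast (m + 1).factorial_pos
  have hPv : ∏ i : Fin m, v i.succ = Pw / θ ^ m := by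
    rw [Finset.prod_congr rfl fun i _ => hS.vsucc i, Finset.prod_div_distrib]
    simp [hPw]
  rw [hPv] at h1
  have e1 : μ0 * a + S = a * (μ0 + S / a) := by field_simp
  have h3 : (K : ℝ) * ((μ0 * a + S) ^ (m + 1) / ((m + 1).factorial * (v 0 * (Pw / θ ^ m)))) <
      a ^ (m + 1) / ((m + 1).factorial * (w 0 * Pw)) := by
    have e2 : (K : ℝ) * ((μ0 * a + S) ^ (m + 1) / ((m + 1).factorial * (v 0 * (Pw / θ ^ m)))) =
        a ^ (m + 1) / ((m + 1).factorial * (w 0 * Pw)) *
          ((K : ℝ) * (μ0 + S / a) ^ (m + 1) * θ ^ m * w 0 / v 0) := by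
      rw [e1, mul_pow]
      field_simp
    rw [e2]
    refine mul_lt_of_lt_one_right (by positivity) ?_
    rwa [div_lt_one hv0]
  have h4 : (K : ℝ) * (simplex v (μ0 * a)).card < (simplex w a).card :=
    lt_of_le_of_lt (mul_le_mul_of_nonneg_left h1 (Nat.cast_nonneg K)) (h3.trans_le h2)
  exact_mod_cast h4

end Vale.Agent.P021Z
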