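import Vale.Agent.P021Z.ZE
import Vale.Agent.P021Z.Ar.Core

/-! Finiteness of the approximations of order larger than two. -/

namespace Vale.Agent.P021Z

theorem finite_approx {ν : ℝ} (hν : 2 < ν) :
    {pq : ℤ × ℤ | IsCoprime pq.1 pq.2 ∧ 2 ≤ pq.2 ∧
      0 < |Real.pi - (pq.1 : ℝ) / (pq.2 : ℝ)| ∧
      |Real.pi - (pq.1 : ℝ) / (pq.2 : ℝ)| < (pq.2 : ℝ) ^ (-ν)}.Finite :=
  Ar.finite_approx_of
    (fun hm _ _ _ _ _ hS _ h1 h2 h3 h4 => exists_minor hm hS h1 h2 h3 h4) hν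

end Vale.Agent.P021Z
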