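import Vale.Agent.P021Z.Basic
import Vale.Agent.P021Z.Mult.Mult

/-! The multiplicity estimate in the terms of `Defs`. -/

open MvPolynomial

namespace Vale.Agent.P021Z

theorem Dw_eq_dword {ι A : Type} [CommRing A] [Algebra ℂ A] (E : ι → Derivation ℂ A A)
    (L : List ι) (f : A) : Dw E L f = Mult.dword E L f := by
  induction L generalizing f with
  | nil => rfl
  | cons i L ih => exact ih _

theorem mult {m : ℕ} (E : Fin (m + 1) → Derivation ℂ (R m) (R m)) {w v : Fin (m + 1) → ℝ}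
    (hw : ∀ i, 0 < w i) (hv : ∀ i, 0 < v i) (q : Ideal (R m)) (G : Set (R m))
    (hq : q ∈ (Ideal.span G).minimalPrimes) {ε : ℝ} (hε : 0 < ε)
    (hG : ∀ g ∈ G, ∃ a b, g ∈ F w a ∧ ε * a ≤ b ∧
      ∀ L : List (Fin (m + 1)), (L.map v).sum < b → Dw E L g ∈ q)
    (B : Finset (Fin (m + 1))) (hB : ∀ f ∈ q, f.vars ⊆ B → f = 0)
    (halg : ∀ l, l ∉ B → ∃ f ∈ q, f ≠ 0 ∧ f.vars ⊆ insert l B)
    (J : Finset (Fin (m + 1))) (hJ : J.card = Bᶜ.card) (y : Fin (m + 1) → R m)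
    (hy : ∀ i ∈ J, y i ∈ q) (hyd : ∀ i ∈ J, E i (y i) ∉ q)
    (hyo : ∀ i ∈ J, ∀ k ∈ J, i ≠ k → E i (y k) ∈ q) :
    ε ^ J.card * ∏ l ∈ Bᶜ, w l ≤ (J.card : ℝ) ^ J.card * ∏ i ∈ J, v i := by
  refine Mult.mult E w v hw hv q G hq ε hε (fun g hg => ?_) B hB halg J hJ y hy hyd hyo
  obtain ⟨a, b, h1, h2, h3⟩ := hG g hg
  refine ⟨a, b, fun α hα => ?_, fun L hL => ?_, h2⟩
  · rw [← wt_eq_weight]
    exact mem_F.mp h1 α hα
  · rw [← Dw_eq_dword]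
    exact h3 L hL

end Vale.Agent.P021Z
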