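import Vale.Agent.P021Z.Centres
import Vale.Agent.P021Z.Mult
import Vale.Agent.P021Z.Key.Struct

/-!
The key step of the zero estimate: for a prime strictly contained in the maximal ideal of a
centre there is a polynomial outside the prime whose order at all centres, modulo the prime,
exceeds its degree.
-/

open MvPolynomial

noncomputable section

namespace Vale.Agent.P021Z

/-- Removing the factors `Y - 1` from an auxiliary polynomial. -/
theorem exists_aux_not_dvd {m K : ℕ} {θ : ℝ} {w v : Fin (m + 1) → ℝ} {r : Fin m → ℂ}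
    {T : Fin m → ℕ} (hS : Setup θ w v r T) {μ : ℝ} (hμ : 1 ≤ μ) {a b : ℝ} {P : R m}
    (hP0 : P ≠ 0) (hPF : P ∈ F w a) (hPI : P ∈ I v r T K b) (hab : μ * a < b) :
    ∃ (P' : R m) (a' b' : ℝ), P' ∉ Ideal.span {(X 0 - 1 : R m)} ∧ 0 ≤ a' ∧ P' ∈ F w a' ∧
      P' ∈ I v r T K b' ∧ μ * a' < b' := by
  have hu : ¬ IsUnit (X 0 - 1 : R m) := by
    intro h
    have := h.map (eval (fun _ => (1 : ℂ)))
    simp at this
  obtain ⟨n, P', hP', rfl⟩ := WfDvdMonoid.max_power_factor' hP0 hu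
  have hP'0 : P' ≠ 0 := by rintro rfl; exact hP' (dvd_zero _)
  clear hP0
  induction n generalizing a b with
  | zero =>
    rw [pow_zero, one_mul] at hPF hPI
    refine ⟨P', a, b, fun h => hP' (Ideal.mem_span_singleton.1 h), ?_, hPF, hPI, hab⟩
    by_contra ha
    exact hP'0 (eq_zero_of_mem_F_neg (fun i => (hS.wpos i).le) (not_le.1 ha) hPF)
  | succ n ih =>
    rw [pow_succ', mul_assoc] at hPF hPI
    refine ih ?_ (mem_F_of_Y_mul hS.wpos hPF) (mem_I_of_Y_mul (fun i => (hS.vpos i).le) hPI)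
    have h1 := hS.v0le
    have h2 := hS.wpos 0
    nlinarith

/-- The structure lemma combined with the multiplicity inequality. -/
theorem struct_of_jets {m : ℕ} {θ : ℝ} {w v : Fin (m + 1) → ℝ} {r : Fin m → ℂ}
    {T : Fin m → ℕ} (hS : Setup θ w v r T) {ε : ℝ} (hε : 0 < ε) (hε1 : ε ≤ 1)
    (hsep : ∀ i l, i < l → v i < (ε / (m + 2)) ^ (m + 1) * θ ^ m * w l)
    (q : Ideal (R m)) (G : Set (R m)) (hq : q ∈ (Ideal.span G).minimalPrimes) {a : ℝ}
    (hG : ∀ g ∈ G, g ∈ F w a ∧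
      ∀ L : List (Fin (m + 1)), (L.map v).sum < ε * a → Dw D L g ∈ q)
    (hq0 : q ≠ ⊥) (hY : (X 0 : R m) ∉ q) :
    ∃ c0 : ℂ, X 0 - C c0 ∈ q ∧
      ((∃ (l : Fin m) (c1 : ℂ), X l.succ - C c1 ∈ q) ∨ q ≤ Ideal.span {X 0 - C c0}) := by
  classical
  have hqprime : q.IsPrime := hq.1.1
  have hw0 : ∀ i, 0 ≤ w i := fun i => (hS.wpos i).le
  have hv0 : ∀ i, 0 ≤ v i := fun i => (hS.vpos i).le
  have hθ := hS.θpos
  have hm0 : (0 : ℝ) ≤ m := Nat.cast_nonneg m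
  have hm2 : (0 : ℝ) < m + 2 := by positivity
  obtain ⟨c, hc⟩ : ∃ c : ℝ, c = (m + 2) / ε := ⟨_, rfl⟩
  have hc1 : 1 ≤ c := by
    rw [hc, le_div_iff₀ hε]
    linarith
  have hεc : ε * c = m + 2 := by rw [hc]; field_simp
  have hΘ : 1 ≤ θ⁻¹ := (one_le_inv₀ hθ).2 hS.θlt.le
  refine Key.struct D D_zero_apply (fun i f => by rw [D_succ]) q hq0 hY
    w v c θ⁻¹ hS.wpos hv0 ?_ hc1 hΘ ?_ ?_
  · intro i
    refine Fin.cases ?_ (fun i => ?_) i
    · exact hS.v0le.trans (le_mul_of_one_le_left (hw0 0) hΘ)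
    · rw [hS.vsucc i, div_eq_inv_mul]
  · intro i l hil
    have h1 := hsep i l hil
    have h3 : c * (ε / (m + 2)) = 1 := by
      rw [hc]
      field_simp
    have h4 : θ⁻¹ * θ = 1 := inv_mul_cancel₀ hθ.ne'
    have h2 : c ^ (m + 1) * θ⁻¹ ^ m * ((ε / (m + 2)) ^ (m + 1) * θ ^ m * w l) = w l := by
      calc _ = (c * (ε / (m + 2))) ^ (m + 1) * (θ⁻¹ * θ) ^ m * w l := by
            rw [mul_pow, mul_pow]; ring
        _ = w l := by rw [h3, h4, one_pow, one_pow, one_mul, one_mul]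
    rw [← h2]
    have h5 : 0 < c ^ (m + 1) * θ⁻¹ ^ m := by positivity
    exact mul_lt_mul_of_pos_left h1 h5
  · intro B Jn g hB halg hcard hg hd hoff
    have h1 := Mult.mult D w v hS.wpos hS.vpos q G hq ε hε (by
      intro g hg
      refine ⟨a, ε * a, fun al hal => ?_, fun L hL => ?_, le_rfl⟩
      · rw [← wt_eq_weight]
        exact mem_F.1 (hG g hg).1 al hal
      · rw [← Dw_eq_dword]
        exact (hG g hg).2 L hL) B hB halg Jn hcard g hg hd hoff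
    rw [← hcard]
    have hk : (Jn.card : ℝ) ≤ m + 1 := by
      have := Finset.card_le_univ Jn
      rw [Fintype.card_fin] at this
      exact_mod_cast this
    have h2 : (Jn.card : ℝ) ≤ ε * c := by linarith
    have h3 : 0 ≤ ∏ i ∈ Jn, v i := Finset.prod_nonneg fun i _ => hv0 i
    have h4 : ε ^ Jn.card * ∏ l ∈ Bᶜ, w l ≤ ε ^ Jn.card * (c ^ Jn.card * ∏ i ∈ Jn, v i) := by
      refine h1.trans ?_
      rw [← mul_assoc, ← mul_pow]
      exact mul_le_mul_of_nonneg_right (pow_le_pow_left₀ (Nat.cast_nonneg _) h2 _) h3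
    exact le_of_mul_le_mul_left h4 (pow_pos hε _)

theorem eq_ctr_of_mem_cm {m : ℕ} {r : Fin m → ℂ} {j : ℕ} {i : Fin (m + 1)} {c : ℂ}
    (h : (X i - C c : R m) ∈ cm r j) : ctr r j i = c := by
  have := mem_cm.1 h
  rw [map_sub, eval_X, eval_C] at this
  exact sub_eq_zero.1 this

/-- A prime that contains all the low order derivatives of the auxiliary polynomial contains
`Y - 1` and some `X_l - c`. -/
theorem const_of_derivs {m : ℕ} {θ : ℝ} {w v : Fin (m + 1) → ℝ} {r : Fin m → ℂ}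
    {T : Fin m → ℕ} (hS : Setup θ w v r T) {ε : ℝ} (hε : 0 < ε) (hε1 : ε ≤ 1)
    (hsep : ∀ i l, i < l → v i < (ε / (m + 2)) ^ (m + 1) * θ ^ m * w l)
    (p : Ideal (R m)) (hp : p.IsPrime) {j : ℕ} (hle : p ≤ cm r j) {P : R m} {a : ℝ}
    (ha : 0 ≤ a) (hPF : P ∈ F w a) (hPn : P ∉ Ideal.span {(X 0 - 1 : R m)})
    (hder : ∀ L : List (Fin (m + 1)), (L.map v).sum ≤ ((m + 2 : ℕ) : ℝ) * (ε * a) →
      Dw D L P ∈ p) :
    (X 0 - 1 : R m) ∈ p ∧ ∃ (l : Fin m) (c : ℂ), (X l.succ - C c : R m) ∈ p := by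
  have hw0 : ∀ i, 0 ≤ w i := fun i => (hS.wpos i).le
  have hεa : 0 ≤ ε * a := mul_nonneg hε.le ha
  let G : ℕ → Set (R m) := fun l =>
    {g | ∃ L : List (Fin (m + 1)), (L.map v).sum ≤ l * (ε * a) ∧ g = Dw D L P}
  let J : ℕ → Ideal (R m) := fun l => Ideal.span (G l)
  have hJ : Monotone J := by
    intro l l' hl
    refine Ideal.span_mono ?_
    rintro g ⟨L, h1, h2⟩
    exact ⟨L, h1.trans (mul_le_mul_of_nonneg_right (Nat.cast_le.2 hl) hεa), h2⟩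
  have hJp : J (m + 2) ≤ p := by
    rw [Ideal.span_le]
    rintro g ⟨L, h1, rfl⟩
    exact hder L h1
  obtain ⟨i, -, q, hq, hJq, hqp⟩ := Key.exists_minimalPrime_step (m + 1) J hJ p
    (Key.height_le_card p) (m + 2) le_rfl hJp
  have hPq : P ∈ q := by
    refine hq.1.2 (Ideal.subset_span ⟨[], ?_, rfl⟩)
    rw [List.map_nil, List.sum_nil]
    exact mul_nonneg (Nat.cast_nonneg i) hεa
  have hq0 : q ≠ ⊥ := by
    rintro rfl
    rw [Ideal.mem_bot] at hPq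
    exact hPn (hPq ▸ Ideal.zero_mem _)
  have hqm : q ≤ cm r j := hqp.trans hle
  have hY : (X 0 : R m) ∉ q := by
    intro h
    have h1 : (X 0 - C 0 : R m) ∈ cm r j := by rw [C_0, sub_zero]; exact hqm h
    exact one_ne_zero (eq_ctr_of_mem_cm h1)
  obtain ⟨c0, hc0, hcase⟩ := struct_of_jets hS hε hε1 hsep q (G i) hq (a := a) (by
    rintro g ⟨L, hL, rfl⟩
    refine ⟨Dw_mem_F hw0 L hPF, fun L' hL' => ?_⟩
    rw [← Dw_append]
    refine hJq (Ideal.subset_span ⟨L ++ L', ?_, rfl⟩)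
    rw [List.map_append, List.sum_append, Nat.cast_succ]
    linarith) hq0 hY
  have hc01 : 1 = c0 := eq_ctr_of_mem_cm (hqm hc0)
  subst hc01
  rw [C_1] at hc0 hcase
  rcases hcase with ⟨l, c1, hc1⟩ | hcase
  · exact ⟨hqp hc0, l, c1, hqp hc1⟩
  · exact absurd (hcase hPq) hPn

theorem key {m K : ℕ} (hm : 0 < m) {θ : ℝ} {w v : Fin (m + 1) → ℝ} {r : Fin m → ℂ}
    {T : Fin m → ℕ} (hS : Setup θ w v r T) {μ0 : ℝ} (hμ1 : 1 < μ0) (hμ2 : μ0 ≤ 2)
    (hex : ∃ a, 0 < a ∧ ∃ P : R m, P ≠ 0 ∧ P ∈ F w a ∧ P ∈ I v r T K (μ0 * a))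
    (hsep : ∀ i l, i < l → v i < ((μ0 - 1) / (2 * (m + 2) ^ 2)) ^ (m + 1) * θ ^ m * w l)
    (p : Ideal (R m)) (hp : p.IsPrime) {j : ℕ} (_hj : j < K) (hle : p ≤ cm r j)
    (hne : p ≠ cm r j) :
    ∃ (Q : R m) (a b : ℝ), Q ∉ p ∧ 0 ≤ a ∧ Q ∈ F w a ∧ Q ∈ I v r T K b ⊔ p ∧ a < b := by
  by_contra hcon
  have hstar : ∀ (Q : R m) (a b : ℝ), 0 ≤ a → Q ∈ F w a → Q ∈ I v r T K b ⊔ p → a < b →
      Q ∈ p := by
    intro Q a b h1 h2 h3 h4
    by_contra h5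
    exact hcon ⟨Q, a, b, h5, h1, h2, h3, h4⟩
  have hw0 : ∀ i, 0 ≤ w i := fun i => (hS.wpos i).le
  have hθ := hS.θpos
  have hθ1 := hS.θlt
  have hm0 : (0 : ℝ) ≤ m := Nat.cast_nonneg m
  have hm2 : (0 : ℝ) < m + 2 := by positivity
  obtain ⟨ε, hε⟩ : ∃ ε : ℝ, ε = (μ0 - 1) / (2 * (m + 2)) := ⟨_, rfl⟩
  have hεpos : 0 < ε := by rw [hε]; apply div_pos <;> linarith
  have hε1 : ε ≤ 1 := by rw [hε, div_le_one (by linarith)]; linarith
  have hεm : ((m + 2 : ℕ) : ℝ) * ε = (μ0 - 1) / 2 := by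
    rw [hε]; push_cast; field_simp
  have hεs : ε / (m + 2) = (μ0 - 1) / (2 * (m + 2) ^ 2) := by
    rw [hε]; field_simp
  obtain ⟨a0, ha0, P0, hP00, hP0F, hP0I⟩ := hex
  obtain ⟨P, a, b, hPn, ha, hPF, hPI, hab⟩ := exists_aux_not_dvd (K := K) hS
    (μ := (1 + μ0) / 2) (by linarith) hP00 hP0F hP0I (by nlinarith)
  obtain ⟨hY, l, c1, hc1⟩ := const_of_derivs hS hεpos hε1 (by rw [hεs]; exact hsep) p hp hle ha
    hPF hPn (by
      intro L h1
      refine hstar _ a (b - (L.map v).sum) ha (Dw_mem_F hw0 L hPF)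
        (Ideal.mem_sup_left (Dw_mem_I hS L hPI)) ?_
      rw [← mul_assoc, hεm] at h1
      linarith)
  have hYp : Ideal.span {(X 0 - 1 : R m)} ≤ p := (Ideal.span_singleton_le_iff_mem p).2 hY
  have hother : ∀ j' : ℕ, j' ≠ j → ¬ p ≤ cm r j' := by
    intro j' hj' h
    have e1 : (j : ℂ) * r l = c1 := eq_ctr_of_mem_cm (hle hc1)
    have e2 : (j' : ℂ) * r l = c1 := eq_ctr_of_mem_cm (h hc1)
    have e3 : (j' : ℂ) * r l = (j : ℂ) * r l := e2.trans e1.symm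
    exact hj' (by exact_mod_cast mul_right_cancel₀ (hS.rne l) e3)
  apply hne
  refine le_antisymm hle ?_
  rw [cm_eq_span, Ideal.span_le]
  rintro _ ⟨k, rfl⟩
  refine Fin.cases ?_ (fun k => ?_) k
  · change (X 0 - C 1 : R m) ∈ p
    rw [C_1]
    exact hY
  · change (X k.succ - C ((j : ℂ) * r k) : R m) ∈ p
    refine hstar _ (w k.succ) (v k.succ) (hw0 _)
      (sub_mem (X_mem_F w _) (C_mem_F w (hw0 _) _)) (mem_I_sup hm hS.vpos hS.rne ?_) ?_
    · intro j' _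
      by_cases hj' : j' = j
      · subst hj'
        exact sup_le_sup_left hYp _ (X_sub_mem_Ij_sup j' k)
      · rw [Ij_sup_eq_top hS.vpos (hother j' hj')]
        trivial
    · rw [hS.vsucc k, lt_div_iff₀ hθ]
      have := hS.wpos k.succ
      nlinarith

end Vale.Agent.P021Z
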