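import Mathlib.NumberTheory.DiophantineApproximation.Basic
import Mathlib.Analysis.Real.Pi.Irrational
import Vale.Agent.P021.Defs

/-! The lower bound `2 ≤ μ(x)` for irrational `x`, and the passage from finiteness to `μ(x) = 2`. -/

namespace Vale.Agent.P021Z

open Vale.Agent.P021

theorem two_mem_approxExponents {x : ℝ} (hx : Irrational x) : (2 : ℝ) ∈ approxExponents x := by
  refine ⟨by norm_num, ?_⟩
  have h1 := Real.infinite_rat_abs_sub_lt_one_div_den_sq_of_irrational hx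
  have h2 : {q : ℚ | |x - q| < 1 / (q.den : ℝ) ^ 2 ∧ q.den = 1}.Finite := by
    refine ((Set.finite_Icc (⌊x⌋ - 1) (⌊x⌋ + 2)).image (fun z : ℤ => (z : ℚ))).subset ?_
    rintro q ⟨hq, hd⟩
    have hq1 : (q.num : ℚ) = q := Rat.coe_int_num_of_den_eq_one hd
    have hq2 : (q : ℝ) = (q.num : ℝ) := by exact_mod_cast hq1.symm
    rw [hd, hq2] at hq
    simp only [Nat.cast_one, one_pow, div_one] at hq
    rw [abs_lt] at hq
    have h3 := Int.floor_le x
    have h4 := Int.lt_floor_add_one x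
    refine ⟨q.num, ⟨?_, ?_⟩, hq1⟩
    · have : ((⌊x⌋ - 1 : ℤ) : ℝ) ≤ q.num := by push_cast; linarith
      exact_mod_cast this
    · have : (q.num : ℝ) ≤ ((⌊x⌋ + 2 : ℤ) : ℝ) := by push_cast; linarith
      exact_mod_cast this
  have h3 := h1.sdiff h2
  have hinj : Function.Injective fun q : ℚ => (q.num, (q.den : ℤ)) := by
    intro a b hab
    simp only [Prod.mk.injEq, Nat.cast_inj] at hab
    exact Rat.ext hab.1 hab.2
  refine (h3.image hinj.injOn).mono ?_
  rintro _ ⟨q, ⟨hq, hq'⟩, rfl⟩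
  have hd : q.den ≠ 1 := fun h => hq' ⟨hq, h⟩
  have hd0 := q.den_pos
  have hcast : ((q.num : ℝ) / ((q.den : ℤ) : ℝ)) = q := by
    rw [Int.cast_natCast, Rat.cast_def]
  refine ⟨?_, by simp only; omega, ?_, ?_⟩
  · exact Int.isCoprime_iff_gcd_eq_one.2 q.reduced
  · simp only [hcast]
    exact abs_pos.2 (sub_ne_zero.2 (hx.ne_rat q))
  · simp only [hcast]
    rw [Real.rpow_neg (by positivity), Real.rpow_two, Int.cast_natCast, ← one_div]
    exact hq

theorem two_le_irrationalityExponent {x : ℝ} (hx : Irrational x) :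
    ((2 : ℝ) : EReal) ≤ irrationalityExponent x :=
  le_iSup₂_of_le (f := fun (ν : ℝ) (_ : ν ∈ approxExponents x) => (ν : EReal)) 2
    (two_mem_approxExponents hx) le_rfl

/-- If every exponent above two has finitely many solutions, the exponent is two. -/
theorem irrationalityExponent_eq_two {x : ℝ} (hx : Irrational x)
    (h : ∀ ν : ℝ, 2 < ν → {pq : ℤ × ℤ | IsCoprime pq.1 pq.2 ∧ 2 ≤ pq.2 ∧
      0 < |x - (pq.1 : ℝ) / (pq.2 : ℝ)| ∧
      |x - (pq.1 : ℝ) / (pq.2 : ℝ)| < (pq.2 : ℝ) ^ (-ν)}.Finite) :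
    irrationalityExponent x = 2 := by
  have h2 : ((2 : ℝ) : EReal) = 2 := rfl
  rw [← h2]
  refine le_antisymm (iSup₂_le fun ν hν => ?_) (two_le_irrationalityExponent hx)
  rw [EReal.coe_le_coe_iff]
  by_contra hc
  exact hν.2 (h ν (not_le.1 hc))

theorem mu_pi_eq_two_of_finite
    (h : ∀ ν : ℝ, 2 < ν → {pq : ℤ × ℤ | IsCoprime pq.1 pq.2 ∧ 2 ≤ pq.2 ∧
      0 < |Real.pi - (pq.1 : ℝ) / (pq.2 : ℝ)| ∧
      |Real.pi - (pq.1 : ℝ) / (pq.2 : ℝ)| < (pq.2 : ℝ) ^ (-ν)}.Finite) :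
    irrationalityExponent Real.pi = 2 :=
  irrationalityExponent_eq_two irrational_pi h

end Vale.Agent.P021Z
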