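import Vale.Agent.P021Z.NakaiApp
import Mathlib.Algebra.MvPolynomial.Basic
import Mathlib.Algebra.MvPolynomial.CommRing

/-!
From interpolation of jets to a nonzero minor of the jet matrix.
-/

namespace Vale.Agent.P021Z

open Function MvPolynomial

/-- If all jets indexed by the rows `(jr i, γ i)` are attained by polynomials supported in `Sw`,
then some square matrix of jets of monomials with exponents in `Sw` is invertible. -/
theorem exists_minor_of_jets {K σ ι ρ : Type*} [Field K] [Fintype ρ] [DecidableEq ρ]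
    (φ : ι → (MvPolynomial σ K →ₐ[K] MvPolynomial σ K)) (hφ : ∀ j, Surjective (φ j))
    (jr : ρ → ι) (γ : ρ → (σ →₀ ℕ)) (hinj : ∀ i i', jr i = jr i' → γ i = γ i' → i = i')
    (Sw : Set (σ →₀ ℕ))
    (h : ∀ g : ι → MvPolynomial σ K, ∃ x : MvPolynomial σ K, (∀ d ∈ x.support, d ∈ Sw) ∧
      ∀ i, coeff (γ i) (φ (jr i) (x - g (jr i))) = 0) :
    ∃ c : ρ → (σ →₀ ℕ), Injective c ∧ (∀ i, c i ∈ Sw) ∧
      (Matrix.of fun i i' => coeff (γ i) (φ (jr i) (monomial (c i') 1))).det ≠ 0 := by
  classical
  let col : Sw → ρ → K := fun d i => coeff (γ i) (φ (jr i) (monomial d.1 1))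
  have hspan : Submodule.span K (Set.range col) = ⊤ := by
    rw [eq_top_iff]
    intro y _
    let t : ι → MvPolynomial σ K := fun j => ∑ i with jr i = j, monomial (γ i) (y i)
    choose g hg using fun j => hφ j (t j)
    obtain ⟨x, hx, hxg⟩ := h g
    have hy : ∀ i, coeff (γ i) (φ (jr i) x) = y i := by
      intro i
      have h1 := hxg i
      rw [map_sub, coeff_sub, sub_eq_zero, hg] at h1
      rw [h1]
      simp only [t, coeff_sum, coeff_monomial]
      rw [Finset.sum_eq_single i]
      · simp
      · intro i' hi' hne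
        rw [if_neg]
        intro e
        exact hne (hinj i' i (Finset.mem_filter.1 hi').2 e)
      · intro hi
        exact absurd (by simp) hi
    have e : y = ∑ d ∈ x.support.attach, coeff d.1 x • col ⟨d.1, hx d.1 d.2⟩ := by
      funext i
      rw [← hy i, Finset.sum_apply]
      conv_lhs => rw [x.as_sum, ← Finset.sum_attach]
      rw [map_sum, coeff_sum]
      refine Finset.sum_congr rfl fun d _ => ?_
      have e2 : monomial d.1 (coeff d.1 x) = coeff d.1 x • monomial d.1 (1 : K) := by
        rw [smul_monomial, smul_eq_mul, mul_one]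
      rw [e2, map_smul, coeff_smul]
      rfl
    rw [e]
    exact Submodule.sum_mem _ fun d _ =>
      Submodule.smul_mem _ _ (Submodule.subset_span ⟨_, rfl⟩)
  obtain ⟨c, hc, hdet⟩ := exists_minor_ne_zero col hspan
  exact ⟨fun i => (c i).1, Subtype.val_injective.comp hc, fun i => (c i).2, hdet⟩

end Vale.Agent.P021Z
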