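import Mathlib.RingTheory.Noetherian.Basic
import Mathlib.RingTheory.Ideal.Operations
import Mathlib.RingTheory.Ideal.Prime
import Mathlib.Data.Real.Basic
import Mathlib.Algebra.Order.Floor.Semiring
import Mathlib.Algebra.Order.Archimedean.Basic
import Mathlib.Algebra.Order.Archimedean.Real.Basic
import Mathlib.Tactic.Linarith
import Mathlib.Tactic.Ring
import Mathlib.Tactic.Positivity
import Mathlib.Tactic.FieldSimp

/-!
An abstract Nakai type lemma: in a Noetherian ring with an increasing filtration `F` (degrees)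
and a decreasing filtration `J` by ideals (orders), either every element is, up to a factor in
`S`, congruent to an element of degree at most `H` modulo order `s * H` (for a slope `s > s0` and
all large `H`), or there is a prime ideal modulo which this fails and which contains every element
whose order modulo the prime exceeds `s0` times its degree.
-/

namespace Vale.Agent.P021Z

/-- The ideal `P` is good: for some slope `s > s0` and all large `H`, every `g` is, after
multiplication by an element of `S`, congruent to an element of `F H` modulo `J (s * H) ⊔ P`. -/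
def Good {k A : Type*} [Semiring k] [CommRing A] [Module k A] (F : ℝ → Submodule k A)
    (J : ℝ → Ideal A) (S : Submonoid A) (s0 : ℝ) (P : Ideal A) : Prop :=
  ∃ s : ℝ, s0 < s ∧ ∃ H0 : ℝ, ∀ H : ℝ, H0 ≤ H → ∀ g : A,
    ∃ u ∈ S, ∃ x ∈ F H, u * g - x ∈ J (s * H) ⊔ P

section

variable {k A : Type*} [Semiring k] [CommRing A] [Module k A] {F : ℝ → Submodule k A}
  {J : ℝ → Ideal A} {S : Submonoid A} {s0 : ℝ}

theorem Good.mono {P Q : Ideal A} (h : Good F J S s0 P) (hPQ : P ≤ Q) : Good F J S s0 Q := by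
  obtain ⟨s, hs, H0, hH⟩ := h
  refine ⟨s, hs, H0, fun H hH0 g => ?_⟩
  obtain ⟨u, hu, x, hx, h⟩ := hH H hH0 g
  exact ⟨u, hu, x, hx, sup_le_sup_left hPQ _ h⟩

theorem good_top : Good F J S s0 ⊤ :=
  ⟨s0 + 1, by linarith, 0, fun H _ g => ⟨1, S.one_mem, 0, (F H).zero_mem, by simp⟩⟩

/-- An ideal that meets `S` is good. -/
theorem good_of_mem {P : Ideal A} {u : A} (hu : u ∈ S) (huP : u ∈ P) : Good F J S s0 P :=
  ⟨s0 + 1, by linarith, 0, fun H _ g => ⟨u, hu, 0, (F H).zero_mem, by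
    simpa using Ideal.mem_sup_right (P.mul_mem_right g huP)⟩⟩

/-- One division step: unfolding membership in `J b ⊔ (P ⊔ span {f})`. -/
theorem exists_of_mem_sup_span {P Q : Ideal A} {f y : A} (h : y ∈ Q ⊔ (P ⊔ Ideal.span {f})) :
    ∃ h1 : A, y - f * h1 ∈ Q ⊔ P := by
  rw [← sup_assoc] at h
  obtain ⟨a, ha, b, hb, rfl⟩ := Submodule.mem_sup.1 h
  obtain ⟨c, rfl⟩ := Ideal.mem_span_singleton'.1 hb
  exact ⟨c, by simpa [mul_comm] using ha⟩

/-- If `f * g ∈ P` and both `P ⊔ (f)` and `P ⊔ (g)` are good then `P` is good. -/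
theorem good_of_mul (hFmul : ∀ a a' f g, f ∈ F a → g ∈ F a' → f * g ∈ F (a + a'))
    (hFex : ∀ f, ∃ a, f ∈ F a) (hJanti : Antitone J) (hS : ∀ u ∈ S, u ∈ F 0)
    {P : Ideal A} {f g : A} (hfg : f * g ∈ P) (hf : Good F J S s0 (P ⊔ Ideal.span {f}))
    (hg : Good F J S s0 (P ⊔ Ideal.span {g})) : Good F J S s0 P := by
  obtain ⟨s1, hs1, H1, h1⟩ := hf
  obtain ⟨s2, hs2, H2, h2⟩ := hg
  obtain ⟨a, ha⟩ := hFex f
  obtain ⟨s, hs, hs'⟩ := exists_between (lt_min hs1 hs2)
  have hs1' : s < s1 := lt_of_lt_of_le hs' (min_le_left _ _)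
  have hs2' : s < s2 := lt_of_lt_of_le hs' (min_le_right _ _)
  refine ⟨s, hs, max (max H1 0) (max (H2 + a) (s2 * a / (s2 - s))), fun H hH h => ?_⟩
  have hH1 : H1 ≤ H := le_trans (le_trans (le_max_left _ _) (le_max_left _ _)) hH
  have hH0 : 0 ≤ H := le_trans (le_trans (le_max_right _ _) (le_max_left _ _)) hH
  have hH2 : H2 ≤ H - a := by
    have := le_trans (le_trans (le_max_left _ _) (le_max_right _ _)) hH
    linarith
  have hH3 : s * H ≤ s2 * (H - a) := by
    have h3 : s2 * a / (s2 - s) ≤ H := le_trans (le_trans (le_max_right _ _) (le_max_right _ _)) hH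
    rw [div_le_iff₀ (by linarith)] at h3
    nlinarith
  obtain ⟨u, hu, x, hx, hux⟩ := h1 H hH1 h
  obtain ⟨h', hh'⟩ := exists_of_mem_sup_span hux
  obtain ⟨u', hu', x', hx', hux'⟩ := h2 (H - a) hH2 h'
  obtain ⟨h'', hh''⟩ := exists_of_mem_sup_span hux'
  refine ⟨u' * u, S.mul_mem hu' hu, u' * x + f * x', (F H).add_mem ?_ ?_, ?_⟩
  · simpa using hFmul 0 H u' x (hS u' hu') hx
  · simpa using hFmul a (H - a) f x' ha hx'
  · have e : u' * u * h - (u' * x + f * x') =
        u' * (u * h - x - f * h') + f * (u' * h' - x' - g * h'') + f * g * h'' := by ring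
    rw [e]
    refine Ideal.add_mem _ (Ideal.add_mem _ (Ideal.mul_mem_left _ _ ?_)
      (Ideal.mul_mem_left _ _ ?_)) (Ideal.mem_sup_right (P.mul_mem_right _ hfg))
    · exact sup_le_sup_right (hJanti (by nlinarith)) _ hh'
    · exact sup_le_sup_right (hJanti hH3) _ hh''

theorem pow_mem_sup_of_mem (hJmul : ∀ b b', J b * J b' ≤ J (b + b')) {P : Ideal A} {f : A} {b : ℝ}
    (hf : f ∈ J b ⊔ P) (n : ℕ) : f ^ (n + 1) ∈ J ((n + 1 : ℕ) * b) ⊔ P := by
  induction n with
  | zero => simpa using hf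
  | succ n ih =>
    obtain ⟨y, hy, p, hp, e⟩ := Submodule.mem_sup.1 hf
    obtain ⟨y', hy', p', hp', e'⟩ := Submodule.mem_sup.1 ih
    have h1 : y' * y ∈ J (((n + 1 + 1 : ℕ) : ℝ) * b) := by
      have := hJmul _ _ (Ideal.mul_mem_mul hy' hy)
      convert this using 2
      push_cast; ring
    have e2 : f ^ (n + 1 + 1) = y' * y + (y' * p + p' * f) := by
      rw [pow_succ, ← e']; nth_rewrite 1 [← e]; rw [← e]; ring
    rw [e2]
    exact Ideal.add_mem _ (Ideal.mem_sup_left h1)
      (Ideal.mem_sup_right (P.add_mem (P.mul_mem_left _ hp) (P.mul_mem_right _ hp')))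

/-- If `f` has degree at most `a` and order at least `b` modulo `P` with `s0 * a < b`, `0 < b`, and
`P ⊔ (f)` is good, then `P` is good. -/
theorem good_of_steep (hFmono : Monotone F)
    (hFmul : ∀ a a' f g, f ∈ F a → g ∈ F a' → f * g ∈ F (a + a'))
    (hJanti : Antitone J) (hJmul : ∀ b b', J b * J b' ≤ J (b + b')) (hS : ∀ u ∈ S, u ∈ F 0)
    (hs0 : 0 < s0) {P : Ideal A} {f : A} {a b : ℝ} (hfa : f ∈ F a) (hfb : f ∈ J b ⊔ P)
    (hb : 0 < b) (hab : s0 * a < b) (hf : Good F J S s0 (P ⊔ Ideal.span {f})) :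
    Good F J S s0 P := by
  obtain ⟨s1, hs1, H1, h1⟩ := hf
  -- make the degree positive
  obtain ⟨a', ha', ha0, hab'⟩ : ∃ a' : ℝ, a ≤ a' ∧ 0 < a' ∧ s0 * a' < b := by
    have h0 : max a 0 < b / s0 := by
      rw [max_lt_iff]
      refine ⟨?_, div_pos hb hs0⟩
      rw [lt_div_iff₀ hs0]; linarith
    obtain ⟨a', h1, h2⟩ := exists_between h0
    refine ⟨a', le_trans (le_max_left _ _) h1.le, lt_of_le_of_lt (le_max_right _ _) h1, ?_⟩
    rw [lt_div_iff₀ hs0] at h2; linarith
  replace hfa : f ∈ F a' := hFmono ha' hfa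
  clear ha' hab
  have h0 : s0 < b / a' := by rw [lt_div_iff₀ ha0]; exact hab'
  obtain ⟨s, hs, hs'⟩ := exists_between (lt_min hs1 h0)
  have hs1' : s < s1 := lt_of_lt_of_le hs' (min_le_left _ _)
  have hs2' : s * a' < b := by
    have := lt_of_lt_of_le hs' (min_le_right _ _)
    rwa [lt_div_iff₀ ha0] at this
  have hspos : 0 < s := hs0.trans hs
  have key : ∀ n : ℕ, ∀ H : ℝ, max H1 0 + n * a' ≤ H → ∀ h : A,
      ∃ u ∈ S, ∃ x ∈ F H, ∃ h' : A, u * h - x - f ^ n * h' ∈ J (s * H) ⊔ P := by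
    intro n
    induction n with
    | zero => exact fun H _ h => ⟨1, S.one_mem, 0, (F H).zero_mem, h, by simp⟩
    | succ n ih =>
      intro H hH h
      have hn : 0 ≤ (n : ℝ) * a' := by positivity
      have hm1 : H1 ≤ max H1 0 := le_max_left _ _
      have hm0 : 0 ≤ max H1 0 := le_max_right _ _
      push_cast at hH
      obtain ⟨u, hu, x, hx, hux⟩ := h1 H (by nlinarith) h
      obtain ⟨h', hh'⟩ := exists_of_mem_sup_span hux
      obtain ⟨u', hu', x', hx', h'', hh''⟩ := ih (H - a') (by linarith) h'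
      refine ⟨u' * u, S.mul_mem hu' hu, u' * x + f * x', (F H).add_mem ?_ ?_, h'', ?_⟩
      · simpa using hFmul 0 H u' x (hS u' hu') hx
      · simpa using hFmul a' (H - a') f x' hfa hx'
      · have e : u' * u * h - (u' * x + f * x') - f ^ (n + 1) * h'' =
            u' * (u * h - x - f * h') + f * (u' * h' - x' - f ^ n * h'') := by ring
        rw [e]
        have hH0 : 0 ≤ H := by nlinarith
        refine Ideal.add_mem _ (Ideal.mul_mem_left _ _ ?_) ?_
        · exact sup_le_sup_right (hJanti (by nlinarith)) _ hh'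
        · obtain ⟨y, hy, p, hp, e1⟩ := Submodule.mem_sup.1 hfb
          obtain ⟨y', hy', p', hp', e2⟩ := Submodule.mem_sup.1 hh''
          rw [← e2, ← e1]
          have e3 : (y + p) * (y' + p') = y * y' + (p * y' + (y + p) * p') := by ring
          rw [e3]
          refine Ideal.add_mem _ (Ideal.mem_sup_left ?_)
            (Ideal.mem_sup_right (P.add_mem (P.mul_mem_right _ hp) (P.mul_mem_left _ hp')))
          exact hJanti (by nlinarith) (hJmul _ _ (Ideal.mul_mem_mul hy hy'))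
  refine ⟨s, hs, max 0 ((max H1 0 + a') * b / (b - s * a')), fun H hH h => ?_⟩
  have hH0 : 0 ≤ H := le_trans (le_max_left _ _) hH
  have hH1 : (max H1 0 + a') * b ≤ H * (b - s * a') := by
    have := le_trans (le_max_right _ _) hH
    rwa [div_le_iff₀ (by linarith)] at this
  set n : ℕ := ⌊s * H / b⌋₊ with hn
  have hn1 : (n : ℝ) ≤ s * H / b := Nat.floor_le (by positivity)
  have hn2 : s * H / b < n + 1 := Nat.lt_floor_add_one _
  rw [le_div_iff₀ hb] at hn1
  rw [div_lt_iff₀ hb] at hn2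
  obtain ⟨u, hu, x, hx, h', hh'⟩ := key (n + 1) H (by
    push_cast
    have : (max H1 0 + (n + 1) * a') * b ≤ H * b := by nlinarith
    exact le_of_mul_le_mul_right this hb) h
  refine ⟨u, hu, x, hx, ?_⟩
  have e : u * h - x = (u * h - x - f ^ (n + 1) * h') + f ^ (n + 1) * h' := by ring
  rw [e]
  refine Ideal.add_mem _ hh' (Ideal.mul_mem_right _ _ ?_)
  refine sup_le_sup_right (hJanti ?_) _ (pow_mem_sup_of_mem hJmul hfb n)
  push_cast
  exact hn2.le

/-- The Nakai type lemma. -/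
theorem nakai [IsNoetherianRing A] (hFmono : Monotone F)
    (hFmul : ∀ a a' f g, f ∈ F a → g ∈ F a' → f * g ∈ F (a + a'))
    (hFex : ∀ f, ∃ a, f ∈ F a) (hJanti : Antitone J)
    (hJmul : ∀ b b', J b * J b' ≤ J (b + b')) (hS : ∀ u ∈ S, u ∈ F 0) (hs0 : 0 < s0) :
    Good F J S s0 ⊥ ∨ ∃ p : Ideal A, p.IsPrime ∧ ¬ Good F J S s0 p ∧
      ∀ (f : A) (a b : ℝ), f ∈ F a → f ∈ J b ⊔ p → 0 < b → s0 * a < b → f ∈ p := by
  by_cases h : Good F J S s0 ⊥
  · exact Or.inl h
  right
  obtain ⟨p, hp, hmax⟩ := set_has_maximal_iff_noetherian.2 (inferInstance : IsNoetherian A A)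
    {P : Ideal A | ¬ Good F J S s0 P} ⟨⊥, h⟩
  have hbig : ∀ f, f ∉ p → Good F J S s0 (p ⊔ Ideal.span {f}) := by
    intro f hf
    by_contra hc
    refine hmax _ hc (lt_of_le_of_ne le_sup_left fun e => hf ?_)
    rw [e]
    exact Ideal.mem_sup_right (Ideal.mem_span_singleton_self f)
  refine ⟨p, ⟨?_, ?_⟩, hp, ?_⟩
  · rintro rfl
    exact hp good_top
  · intro f g hfg
    by_contra hc
    rw [not_or] at hc
    exact hp (good_of_mul hFmul hFex hJanti hS hfg (hbig f hc.1) (hbig g hc.2))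
  · intro f a b hfa hfb hb hab
    by_contra hc
    exact hp (good_of_steep hFmono hFmul hJanti hJmul hS hs0 hfa hfb hb hab (hbig f hc))

/-- The form used in applications: if every prime that contains all its steep elements is good,
then the zero ideal is good. -/
theorem good_bot_of_primes [IsNoetherianRing A] (hFmono : Monotone F)
    (hFmul : ∀ a a' f g, f ∈ F a → g ∈ F a' → f * g ∈ F (a + a'))
    (hFex : ∀ f, ∃ a, f ∈ F a) (hJanti : Antitone J)
    (hJmul : ∀ b b', J b * J b' ≤ J (b + b')) (hS : ∀ u ∈ S, u ∈ F 0) (hs0 : 0 < s0)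
    (hp : ∀ p : Ideal A, p.IsPrime →
      (∀ (f : A) (a b : ℝ), f ∈ F a → f ∈ J b ⊔ p → 0 < b → s0 * a < b → f ∈ p) →
      Good F J S s0 p) : Good F J S s0 ⊥ := by
  rcases nakai hFmono hFmul hFex hJanti hJmul hS hs0 with h | ⟨p, h1, h2, h3⟩
  · exact h
  · exact absurd (hp p h1 h3) h2

end

end Vale.Agent.P021Z
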