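import Vale.Agent.P021Z.ZE0
import Vale.Agent.P021Z.Exists
import Vale.Agent.P021Z.Key

/-!
The zero estimate in interpolation form, unconditionally.
-/

open MvPolynomial Function

noncomputable section

namespace Vale.Agent.P021Z

theorem jets_onto {m K : ℕ} (hm : 0 < m) {θ : ℝ} {w v : Fin (m + 1) → ℝ} {r : Fin m → ℂ}
    {T : Fin m → ℕ} (hS : Setup θ w v r T) {μ0 : ℝ} (hμ1 : 1 < μ0) (hμ2 : μ0 ≤ 2)
    (hvol : (K : ℝ) * μ0 ^ (m + 1) * θ ^ m * w 0 < v 0)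
    (hsep : ∀ i l, i < l → v i < ((μ0 - 1) / (2 * (m + 2) ^ 2)) ^ (m + 1) * θ ^ m * w l) :
    ∃ H0 : ℝ, ∀ H, H0 ≤ H → ∀ c : Fin K → (Fin (m + 1) →₀ ℕ) → ℂ,
      ∃ P ∈ F w H, ∀ (j : Fin K) (β : Fin (m + 1) →₀ ℕ), wt v β < H →
        coeff β (phi r T j P) = c j β :=
  jets_onto_of_key hm hS fun p hp _ hj hle hne =>
    key hm hS hμ1 hμ2 (exists_aux hS (by linarith) hvol) hsep p hp hj hle hne

theorem exists_minor {m K : ℕ} (hm : 0 < m) {θ : ℝ} {w v : Fin (m + 1) → ℝ} {r : Fin m → ℂ}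
    {T : Fin m → ℕ} (hS : Setup θ w v r T) {μ0 : ℝ} (hμ1 : 1 < μ0) (hμ2 : μ0 ≤ 2)
    (hvol : (K : ℝ) * μ0 ^ (m + 1) * θ ^ m * w 0 < v 0)
    (hsep : ∀ i l, i < l → v i < ((μ0 - 1) / (2 * (m + 2) ^ 2)) ^ (m + 1) * θ ^ m * w l) :
    ∃ H0 : ℝ, ∀ H, H0 ≤ H → ∃ col : Fin K × ↥(simplex v H) → (Fin (m + 1) →₀ ℕ),
      (∀ c, wt w (col c) ≤ H) ∧
      (Matrix.of fun ρ c : Fin K × ↥(simplex v H) =>
        coeff ρ.2.1 (phi r T ρ.1 (monomial (col c) 1))).det ≠ 0 :=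
  exists_minor_of_key hm hS fun p hp _ hj hle hne =>
    key hm hS hμ1 hμ2 (exists_aux hS (by linarith) hvol) hsep p hp hj hle hne

end Vale.Agent.P021Z
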