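import Vale.Agent.P021Z.Minor
import Vale.Agent.P021Z.Centres

/-!
The zero estimate in interpolation form: all jets at the centres are attained by polynomials of
weighted degree at most `H`, and hence the jet matrix has a nonzero minor of full size.
-/

open MvPolynomial Function

noncomputable section

namespace Vale.Agent.P021Z

/-- Interpolation modulo the order ideals, from the key inequality on primes. -/
theorem exists_sub_mem_Ij_of_key {m K : ℕ} (hm : 0 < m) {θ : ℝ} {w v : Fin (m + 1) → ℝ}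
    {r : Fin m → ℂ} {T : Fin m → ℕ} (hS : Setup θ w v r T)
    (hkey : ∀ p : Ideal (R m), p.IsPrime → ∀ j, j < K → p ≤ cm r j → p ≠ cm r j →
      ∃ (Q : R m) (a b : ℝ), Q ∉ p ∧ 0 ≤ a ∧ Q ∈ F w a ∧ Q ∈ I v r T K b ⊔ p ∧ a < b) :
    ∃ H0 : ℝ, ∀ H, H0 ≤ H → ∀ g : Fin K → R m,
      ∃ P ∈ F w H, ∀ j : Fin K, P - g j ∈ Ij v r T j H := by
  have hv0 : ∀ i, 0 ≤ v i := fun i => (hS.vpos i).le
  have hgood : Good (F w) (I v r T K) ⊥ 1 ⊥ := by
    refine good_bot_of_primes (F_mono w) (fun a a' f g hf hg => mul_mem_F hf hg)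
      (fun f => (exists_mem_F w f).imp fun a ha => ha.2) I_anti
      (fun b b' => Ideal.mul_le.2 fun f hf g hg => mul_mem_I hv0 hf hg) ?_ one_pos ?_
    · intro u hu
      rw [Submonoid.mem_bot] at hu
      rw [hu]
      exact C_mem_F w le_rfl 1
    · intro p hp hsteep
      by_cases h1 : ∃ j < K, p ≤ cm r j
      · obtain ⟨j, hj, hle⟩ := h1
        by_cases h2 : p = cm r j
        · subst h2
          refine ⟨2, by norm_num, 0, fun H hH g => ?_⟩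
          refine ⟨1, Submonoid.one_mem _, C (eval (ctr r j) g), C_mem_F w hH _, ?_⟩
          rw [one_mul]
          exact Ideal.mem_sup_right (sub_C_mem_cm j g)
        · obtain ⟨Q, a, b, hQ, ha, hQa, hQb, hab⟩ := hkey p hp j hj hle h2
          exact absurd (hsteep Q a b hQa hQb (by linarith) (by linarith)) hQ
      · push Not at h1
        refine ⟨2, by norm_num, 0, fun H _ g => ⟨1, Submonoid.one_mem _, 0, (F w H).zero_mem, ?_⟩⟩
        refine mem_I_sup hm hS.vpos hS.rne fun j hj => ?_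
        rw [Ij_sup_eq_top hS.vpos (h1 j hj)]
        exact Submodule.mem_top
  obtain ⟨s, hs, H0, hH⟩ := hgood
  refine ⟨max H0 0, fun H hH0 g => ?_⟩
  have hH1 : 0 ≤ H := le_trans (le_max_right _ _) hH0
  have hcop : Pairwise (IsCoprime on fun j : Fin K => Ij v r T j H) := fun j j' h =>
    isCoprime_Ij hm hS.vpos hS.rne (fun e => h (Fin.ext e)) H
  obtain ⟨y, hy⟩ := Ideal.exists_forall_sub_mem_ideal hcop g
  obtain ⟨u, hu, x, hx, hux⟩ := hH H (le_trans (le_max_left _ _) hH0) y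
  rw [Submonoid.mem_bot] at hu
  subst hu
  rw [one_mul, sup_bot_eq, mem_I] at hux
  refine ⟨x, hx, fun j => ?_⟩
  have e : x - g j = (y - g j) - (y - x) := by ring
  rw [e]
  exact (Ij v r T j H).sub_mem (hy j) (Ij_anti j (by nlinarith) (hux j j.2))

theorem coeff_eq_zero_of_mem_Ij {m : ℕ} {v : Fin (m + 1) → ℝ} (hv : ∀ i, 0 ≤ v i)
    {r : Fin m → ℂ} {T : Fin m → ℕ} {j : ℕ} {b : ℝ} {f : R m} (hf : f ∈ Ij v r T j b)
    {β : Fin (m + 1) →₀ ℕ} (hβ : wt v β < b) : coeff β (phi r T j f) = 0 := by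
  by_contra h
  have h1 : phi r T j f ∈ W v b := hf
  exact absurd ((mem_W hv).1 h1 β (mem_support_iff.2 h)) (not_le.2 hβ)

theorem jets_onto_of_key {m K : ℕ} (hm : 0 < m) {θ : ℝ} {w v : Fin (m + 1) → ℝ}
    {r : Fin m → ℂ} {T : Fin m → ℕ} (hS : Setup θ w v r T)
    (hkey : ∀ p : Ideal (R m), p.IsPrime → ∀ j, j < K → p ≤ cm r j → p ≠ cm r j →
      ∃ (Q : R m) (a b : ℝ), Q ∉ p ∧ 0 ≤ a ∧ Q ∈ F w a ∧ Q ∈ I v r T K b ⊔ p ∧ a < b) :
    ∃ H0 : ℝ, ∀ H, H0 ≤ H → ∀ c : Fin K → (Fin (m + 1) →₀ ℕ) → ℂ,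
      ∃ P ∈ F w H, ∀ (j : Fin K) (β : Fin (m + 1) →₀ ℕ), wt v β < H →
        coeff β (phi r T j P) = c j β := by
  obtain ⟨H0, hH⟩ := exists_sub_mem_Ij_of_key hm hS hkey
  refine ⟨H0, fun H hH0 c => ?_⟩
  choose g hg using fun j : Fin K =>
    phi_surjective r T j (∑ β ∈ simplex v H, monomial β (c j β))
  obtain ⟨P, hP, hPg⟩ := hH H hH0 g
  refine ⟨P, hP, fun j β hβ => ?_⟩
  have h1 := coeff_eq_zero_of_mem_Ij (fun i => (hS.vpos i).le) (hPg j) hβ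
  rw [map_sub, coeff_sub, sub_eq_zero, hg] at h1
  rw [h1, coeff_sum]
  simp only [coeff_monomial]
  rw [Finset.sum_ite_eq' (simplex v H) β (c j), if_pos ((mem_simplex hS.vpos).2 hβ)]

theorem exists_minor_of_key {m K : ℕ} (hm : 0 < m) {θ : ℝ} {w v : Fin (m + 1) → ℝ}
    {r : Fin m → ℂ} {T : Fin m → ℕ} (hS : Setup θ w v r T)
    (hkey : ∀ p : Ideal (R m), p.IsPrime → ∀ j, j < K → p ≤ cm r j → p ≠ cm r j →
      ∃ (Q : R m) (a b : ℝ), Q ∉ p ∧ 0 ≤ a ∧ Q ∈ F w a ∧ Q ∈ I v r T K b ⊔ p ∧ a < b) :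
    ∃ H0 : ℝ, ∀ H, H0 ≤ H → ∃ col : Fin K × ↥(simplex v H) → (Fin (m + 1) →₀ ℕ),
      (∀ c, wt w (col c) ≤ H) ∧
      (Matrix.of fun ρ c : Fin K × ↥(simplex v H) =>
        coeff ρ.2.1 (phi r T ρ.1 (monomial (col c) 1))).det ≠ 0 := by
  obtain ⟨H0, hH⟩ := exists_sub_mem_Ij_of_key hm hS hkey
  refine ⟨H0, fun H hH0 => ?_⟩
  obtain ⟨c, -, hc, hdet⟩ := exists_minor_of_jets (ρ := Fin K × ↥(simplex v H))
    (fun j : Fin K => phi r T j) (fun j => phi_surjective r T j) (fun ρ => ρ.1) (fun ρ => ρ.2.1)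
    (fun i i' h1 h2 => Prod.ext h1 (Subtype.ext h2)) {α | wt w α ≤ H} (fun g => by
      obtain ⟨P, hP, hPg⟩ := hH H hH0 g
      exact ⟨P, mem_F.1 hP, fun i => coeff_eq_zero_of_mem_Ij (fun i => (hS.vpos i).le) (hPg i.1)
        ((mem_simplex hS.vpos).1 i.2.2)⟩)
  exact ⟨c, hc, hdet⟩

end Vale.Agent.P021Z
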